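import Vale.Agent.P236TD.KapC
import Vale.Agent.P236JT.Fa
import Vale.Agent.P236JG.Base
import Vale.Agent.P236LB.R

/-!
# P236TD / KapU : a non-vanishing statement in the stem 326 of the Moore spectrum
-/

noncomputable section

namespace Vale.Agent.P236TD

open Vale.Agent.P251.F Vale.Agent.P251.I Vale.Agent.P236SY Vale.Agent.P236R
open Vale.Agent.P236EL Vale.Agent.P236KE Vale.Agent.P236K3 Vale.Agent.P236F AddSubgroup
open Vale.Agent.P236KE.S90 Vale.Agent.P236JX Vale.Agent.P236JT Vale.Agent.P236JG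
open Vale.Agent.P236LB

variable [hp : Fact (Nat.Prime 3)] {t : Cob Laz 1} (h : HK) (ht : IsT1 3 t)

include h ht

theorem kap_univ {x c x₂ c₂} (hx : Grk 1 1 x c) (h2 : Grk 0 2 x₂ c₂)
    {y : Fin 1 → Cob Laz 4} {n : Fin 1 → Cob Laz 3}
    (hy : RL jS 0 iS 4 69 [(0, 0)] [(0, 1)] y lY) (hn : RL jS 0 iS 3 63 [(0, 0)] [(0, 1)] n lN) :
    ∀ X ∈ ZS 70 9, ∀ Z ∈ ZS 64 8,
      lc _ (show 1 + 9 = 10 from rfl) t X + lc _ (show 2 + 8 = 10 from rfl) c₂ Z ∈ BS 71 10 →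
      lc _ (show 1 + 12 = 13 from rfl) x (lb t 10 rfl (lb t 8 rfl Z)) -
        lb t 11 rfl (lb t 9 rfl (lb t 7 rfl (lv 7 (lb t 5 rfl (lb t 3 rfl n))))) ∈ BS 79 13 →
      lb t 12 rfl (lb t 10 rfl (lb t 8 rfl (lv 8 (lb t 6 rfl (lb t 4 rfl y))))) -
        lc _ (show 1 + 13 = 14 from rfl) x (lb t 11 rfl (lb t 9 rfl X)) ∉ HH := by
  intro X hX Z hZ ha hb
  have H := wxS h
  have L := fun s T c c' => lf_nm (R := jS) (θ := 0) (E := eJ) (ix := iS) (H.cx.ok s) T c c'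
  obtain ⟨u, hu, h3⟩ := rep0 H gX hX
  obtain ⟨w, hw, h4⟩ := rep0 H gZ hZ
  have LA := (L 9 70 [(0, 0)] [(0, 2)]).t1 H ht (show 1 + 9 = 10 from rfl)
  have LA' := (L 8 64 [(0, 0)] [(0, 2)]).b0 H h2 (show 2 + 8 = 10 from rfl)
  have LB := (((L 8 64 [(0, 0)] [(0, 2)]).bm H ht rfl).bm H ht rfl).gm H hx
    (show 1 + 12 = 13 from rfl)
  have LB' := (((((((L 3 63 [(0, 0)] [(0, 1)]).bm H ht rfl).bm H ht rfl).v1 H ht (zero_add 7)).bm
    H ht rfl).bm H ht rfl).bm H ht rfl).neg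
  have LC := ((((((L 4 69 [(0, 0)] [(0, 1)]).bm H ht rfl).bm H ht rfl).v1 H ht (zero_add 8)).bm
    H ht rfl).bm H ht rfl).bm H ht rfl
  have LC' := ((((L 9 70 [(0, 0)] [(0, 2)]).bm H ht rfl).bm H ht rfl).gm H hx
    (show 1 + 13 = 14 from rfl)).neg
  have z0 : ∀ {s T c}, ∀ z ∈ (⊥ : AddSubgroup (Fin 1 → Cob Laz s)), RcJ jS 0 s T ⊤ c z 0 :=
    fun z hz => mem_bot.1 hz ▸ RcJ.zero
  rw [sub_eq_add_neg] at hb ⊢
  rw [HH]
  rcases spn3 hw with h5 | h5 | h5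
  · exact (aff2 H LB LB' (grd_spec kb).1 h4 hn h5 (sub_self _) z0
      (mem_sup_right hb)).elim
  · rcases spn3 hu with h6 | h6 | h6
    · exact (aff2 H LA LA' (grd_spec ka).1 h3 h4 h6 h5 z0 (mem_sup_right ha)).elim
    · have h7 : ∀ z ∈ ZS 85 14 ⊓ Fl p3 _ 14 (II 3 (ZMod 3) ^ 2),
          RcJ jS 0 14 (85 : ℕ) ⊤ (P236J3.mI [(0, 2)]) z 0 := fun z hz =>
        (rcJ_any (R := jS) (P236J3.inv_mI [(0, 2)]) hz.1 (P236J3.mI_pow 2 ▸ hz.2)).mono le_top le_rfl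
      have h8 := aff2 H LC LC' kc hy h3 (sub_self _) h6 h7
      exact h8
    · exact (aff2 H LA LA' (grd_spec ka).2 h3 h4 h6 h5 z0 (mem_sup_right ha)).elim
  · exact (aff2 H LB LB' (grd_spec kb).2 h4 hn h5 (sub_self _) z0
      (mem_sup_right hb)).elim

end Vale.Agent.P236TD

end
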