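import Vale.Agent.P236TD.GenL

/-!
# P236TD / GenB : checks in the stems 326 and 321
-/

namespace Vale.Agent.P236TD

open Vale.Agent.P236EL Vale.Agent.P236KE Vale.Agent.P236K3 Vale.Agent.P236F Vale.Agent.P236JX
  Vale.Agent.P236JT Vale.Agent.P236JG

theorem x322 : grd (eJ.exCF 14 84 0 1 q0) (grd (eJ.exCF 14 84 7 1 q7) ((eY eJ).exCF 14 86 2 1 z2)) = true := by
  decide +kernel

theorem h321 : eJ.htAF 15 84 0 60 = true := by
  decide +kernel

theorem a326 : gw eJ 14 85 1 8 11 [(w4 8 10 k8).cvm eJ 90 14 1] = true := by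
  decide +kernel

theorem b326 : grd (gw eJ 14 85 1 11 16 []) (gz eJ 14 85 1 16) = true := by
  decide +kernel

theorem h326 : eJ.htAF 14 85 0 62 = true := by
  decide +kernel

end Vale.Agent.P236TD
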