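import Vale.Agent.P236TD.GenL

/-!
# P236TD / GenC : checks in the stem 322
-/

namespace Vale.Agent.P236TD

open Vale.Agent.P236EL Vale.Agent.P236KE Vale.Agent.P236K3 Vale.Agent.P236F Vale.Agent.P236JX
  Vale.Agent.P236JT Vale.Agent.P236JG

theorem a322 : grd (gw eJ 14 84 0 0 1 [WJ.nm eJ 14 84 [(0, 0)] [(0, 1)] q0]) (gw eJ 14 84 0 1 3
    [(WJ.nm (eY eJ) 14 86 [(0, 2)] [(0, 3)] z2).cjy eJ 14]) = true := by
  decide +kernel

theorem b322 : grd (gw eJ 14 84 0 3 6 [w4 5 6 k5]) (gw eJ 14 84 0 6 7 [w4 6 7 k6]) = true := by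
  decide +kernel

theorem c322 : grd (gw eJ 14 84 0 7 8 [w4 7 8 k7, WJ.nm eJ 14 84 [(0, 7)] [(0, 8)] q7])
    (gw eJ 14 84 0 8 10 [w4 8 10 k8]) = true := by
  decide +kernel

theorem d322 : grd (gw eJ 14 84 0 10 15 []) (gz eJ 14 84 0 15) = true := by
  decide +kernel

theorem h322 : eJ.htAF 14 84 0 61 = true := by
  decide +kernel

end Vale.Agent.P236TD
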