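import Vale.Agent.P236TD.GenA
import Vale.Agent.P236TD.GenB
import Vale.Agent.P236TD.GenC
import Vale.Agent.P236TH.FjA
import Vale.Agent.P236JG.Base
import Vale.Agent.P236LB.R

/-!
# P236TD / GenJ : generators of the stem 322 of the Moore spectrum
-/

noncomputable section

namespace Vale.Agent.P236TD

open Vale.Agent.P251.F Vale.Agent.P251.I Vale.Agent.P236SY Vale.Agent.P236R
open Vale.Agent.P236EL Vale.Agent.P236KE Vale.Agent.P236K3 Vale.Agent.P236F AddSubgroup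
open Vale.Agent.P236KE.S90 Vale.Agent.P236JX Vale.Agent.P236JT Vale.Agent.P236JG
open Vale.Agent.P236LB Vale.Agent.P236J3

variable [hp : Fact (Nat.Prime 3)] {t : Cob Laz 1}

omit hp in
theorem lb4_of {x y : Fin 1 → Cob Laz 6} (hx : x ∈ ZS 72 6) (hy : y ∈ ZS 72 6)
    (h : lv 6 x ∈ zmultiples (lv 6 y) ⊔ BS 73 6) : lb4 t x ∈ zmultiples (lb4 t y) ⊔ UU t := by
  obtain ⟨_, ⟨n, rfl⟩, e, he, h1⟩ := mem_sup.1 h
  have h2 : lb4 t x = n • lb4 t y + lb4 t (x - n • y) := by simp only [lb4, map_sub, map_zsmul]; abel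
  rw [h2]
  exact add_mem_sup (zsmul_mem_zmultiples _ n) (lb4_mem (sub_mem hx (zsmul_mem hy n)) (by
    rwa [map_sub, map_zsmul, ← h1, add_sub_cancel_left]))

omit hp in
theorem gen_of {q₀ q₁ q : Fin 1 → Cob Laz 14} (h0 : q₀ ∈ ZS 84 14) (h1 : q₁ ∈ ZS 84 14)
    (h2 : q ∈ ZS 84 14) (h3 : lv 14 q₁ ∈ HH) (h4 : lv 14 q ∈ zmultiples (lv 14 q₁) ⊔ BS 85 14)
    (h5 : ZS 84 14 ≤ (zmultiples q₀ ⊔ (zmultiples q ⊔ (zmultiples q₁ ⊔ UU t))) ⊔ BS 84 14) :
    P236LB.Gen t := by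
  obtain ⟨_, ⟨n, rfl⟩, e, he, h6⟩ := mem_sup.1 h4
  refine ⟨q₀, h0, q₁, h1, q - n • q₁, sub_mem h2 (zsmul_mem h1 n), h3, by
    rwa [map_sub, map_zsmul, ← h6, add_sub_cancel_left], h5.trans (sup_le (sup_le_sup_left
      (sup_le (zmultiples_le.2 ?_) (sup_le_sup_left le_sup_right _)) _)
      (bs_le_UU.trans (le_sup_right.trans (le_sup_right.trans le_sup_right))))⟩
  simpa using add_mem_sup (zsmul_mem_zmultiples q₁ n)
    (mem_sup_left (T := UU t) (mem_zmultiples (q - n • q₁)))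

variable (h : HK) (ht : IsT1 3 t)

include h ht

theorem cv4 {a b m x} (hx : RL jS 0 iS 6 72 [(0, a)] [(0, b)] x m) :
    CVJ jS 0 eJ iS 14 (lb4 t x) (w4 a b m) :=
  have H := wxS h
  ((((cv_nm (H.cx.ok 6) hx).bm H ht rfl).bm H ht rfl).bm H ht rfl).bm H ht rfl

theorem hh4 {m} {x : Fin 1 → Cob Laz 6} (hx : RL jS 0 iS 6 72 [(0, 8)] [(0, 10)] x m) :
    lv 14 (lb4 t x) ∈ HH := by
  have H := (wxS h).wd
  have i := inv_mI [(0, 8)]
  have i' := inv_mI [(0, 10)]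
  have j : mI [(0, 8)] * P236JF.Jr K 3 ≤ mI [(0, 10)] := Vis.mul rfl
  have b1 := rc_bm (s := 6) (w' := 75) H i i' j (by decide) ht (by decide) rfl rfl hx
  have b2 := rc_bm (s := 8) (w' := 78) H i i' j (by decide) ht (by decide) rfl rfl b1
  have b3 := rc_bm (s := 10) (w' := 81) H i i' j (by decide) ht (by decide) rfl rfl b2
  have b4 := rc_bm (s := 12) (w' := 84) H i i' j (by decide) ht (by decide) rfl rfl b3
  have h1 := rc_vm (s := 14) (k := 1) (w' := 85) H i i' j (by decide) ht (by decide) rfl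
    (zero_add 14) (inv_v 1) b4
  rw [show v1 ^ 1 = v1 from pow_one _] at h1
  obtain ⟨y : Fin 1 → Cob Laz 14, hy, h2⟩ := h1.ex
  have h3 : lv 14 (lb4 t x) - y ∈ ZS 85 14 ⊓ Fl p3 _ 14 (II 3 (ZMod 3) ^ 2) :=
    ⟨(ZS 85 14).sub_mem h1.zc (H.bz hy), Fl_mono p3 (Ideal.mul_le_right.trans
      (mI_pow 2 ▸ Le.mI (c' := [(0, 2)]) rfl)) h2.fl⟩
  rw [HH, ← sub_add_cancel (lv 14 (lb4 t x)) y]
  exact add_mem_sup h3 hy

/-- **generators of stem 322** -/
theorem gen : P236LB.Gen t := by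
  have W := w3 h ht
  have H := W.S
  have i1 := H.hi (H.htAF h281)
  have i2 := H.hi (H.htAF h321)
  have x1 := grd_spec (grd_spec x282).2
  have x2 := grd_spec (grd_spec x322).2
  obtain ⟨-, -, K5, h5⟩ := H.exJ (H.exCF (grd_spec x282).1) i1 (by decide)
  obtain ⟨-, -, K6, h6⟩ := H.exJ (H.exCF x1.1) i1 (by decide)
  obtain ⟨-, -, K7, h7⟩ := H.exJ (H.exCF (grd_spec x1.2).1) i1 (by decide)
  obtain ⟨-, -, K8, h8⟩ := H.exJ (H.exCF (grd_spec x1.2).2) i1 (by decide)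
  obtain ⟨-, -, q₀, h0⟩ := H.exJ (H.exCF (grd_spec x322).1) i2 (by decide)
  obtain ⟨-, -, q, hq⟩ := H.exJ (H.exCF x2.1) i2 (by decide)
  obtain ⟨-, -, z, hz⟩ := W.Y.exJ (W.Y.exCF x2.2) (W.Y.hi (W.Y.htAF P236TH.h329)) (by decide)
  have gA := hgw H .nil (grd_spec a286).1 (hgw H (.one ((cv_nm (H.cx.ok 6) h8).v1 H ht
    (zero_add 6))) (grd_spec a286).2 (hgw H .nil (grd_spec b286).1 (hgz H (grd_spec b286).2 h286)))
  have gB := hgw H (.one ((cv4 h ht h8).v1 H ht (zero_add 14))) a326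
    (hgw H .nil (grd_spec b326).1 (hgz H (grd_spec b326).2 h326))
  have m : ∀ {x}, x ∈ zmultiples (lb4 t K8) ⊔ UU t →
      x ∈ zmultiples q₀ ⊔ (zmultiples q ⊔ (zmultiples (lb4 t K8) ⊔ UU t)) :=
    fun hx => mem_sup_right (mem_sup_right hx)
  have m5 := m (lb4_of h5.zc h8.zc (mem_v H ht gA h5 (by decide) (by decide) rfl))
  have m6 := m (lb4_of h6.zc h8.zc (mem_v H ht gA h6 (by decide) (by decide) rfl))
  have m7 := m (lb4_of h7.zc h8.zc (mem_v H ht gA h7 (by decide) (by decide) rfl))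
  have hz' : z ∈ ZY t 86 14 := by
    have h9 := hz.zc
    rwa [degY] at h9
  have g3 := hgw H (.cons m5 (cv4 h ht h5) .nil) (grd_spec b322).1
    (hgw H (.cons m6 (cv4 h ht h6) .nil) (grd_spec b322).2
      (hgw H (.cons m7 (cv4 h ht h7) (.cons (mem_sup_right (mem_sup_left (mem_zmultiples q)))
        (cv_nm (H.cx.ok 14) hq) .nil)) (grd_spec c322).1
        (hgw H (.cons (m (mem_sup_left (mem_zmultiples _))) (cv4 h ht h8) .nil) (grd_spec c322).2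
          (hgw H .nil (grd_spec d322).1 (hgz H (grd_spec d322).2 h322)))))
  have g0 := hgw H (.cons (mem_sup_left (mem_zmultiples q₀)) (cv_nm (H.cx.ok 14) h0) .nil)
    (grd_spec a322).1 (hgw H (.cons (m (mem_sup_right (jy_mem hz')))
      (W.jy (cv_nm (W.Y.cx.ok 14) hz)) .nil) (grd_spec a322).2 g3)
  exact gen_of h0.zc (lcZ mc_zero rfl (zs_bb ht) rfl (lcZ mc_zero rfl (zs_bb ht) rfl
    (lcZ mc_zero rfl (zs_bb ht) rfl (lcZ mc_zero rfl (zs_bb ht) rfl h8.zc)))) hq.zc (hh4 h ht h8)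
    (mem_v H ht gB hq (by decide) (by decide) rfl) (g0.le (c' := [(0, 0)]) rfl).all

end Vale.Agent.P236TD

end
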