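import Vale.Agent.P236JG.Dat
import Vale.Agent.P236JY.EmF
import Vale.Agent.P236JT.Lf

/-!
# P236TD / KfB : checks in the stem 300 of `Y`
-/

namespace Vale.Agent.P236TD

open Vale.Agent.P236EL Vale.Agent.P236KE Vale.Agent.P236K3 Vale.Agent.P236F Vale.Agent.P236JX
  Vale.Agent.P236JT Vale.Agent.P236JG

/-- the classes of stem 300 -/
def l300 : List (List Tr) :=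
  [[⟨90, 2, 8, 0, 0, 1⟩, ⟨43, 2, 14, 0, 0, 2⟩], [⟨62, 2, 2, 0, 0, 1⟩], [⟨68, 1, 0, 0, 0, 1⟩, ⟨106,
  0, 1, 0, 0, 1⟩, ⟨105, 1, 1, 0, 0, 2⟩, ⟨60, 0, 3, 0, 0, 1⟩, ⟨103, 1, 2, 0, 0, 1⟩, ⟨57, 0, 4, 0,
  0, 2⟩, ⟨59, 1, 3, 0, 0, 2⟩, ⟨98, 1, 3, 0, 0, 2⟩, ⟨54, 0, 5, 0, 0, 2⟩, ⟨96, 1, 4, 0, 0, 2⟩, ⟨56,
  2, 4, 0, 0, 1⟩, ⟨95, 2, 4, 0, 0, 2⟩, ⟨51, 2, 4, 1, 0, 1⟩, ⟨47, 0, 6, 2, 0, 1⟩, ⟨88, 1, 5, 2, 0,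
  1⟩, ⟨92, 1, 7, 0, 0, 2⟩, ⟨86, 1, 6, 2, 0, 1⟩, ⟨89, 0, 8, 1, 0, 2⟩, ⟨91, 2, 7, 0, 0, 2⟩, ⟨43, 0,
  8, 2, 0, 1⟩, ⟨84, 1, 7, 2, 0, 1⟩, ⟨85, 0, 10, 1, 0, 2⟩, ⟨88, 2, 8, 1, 0, 1⟩, ⟨86, 2, 9, 1, 0,
  1⟩, ⟨89, 1, 11, 0, 0, 2⟩, ⟨84, 2, 10, 1, 0, 1⟩, ⟨44, 0, 14, 0, 0, 1⟩, ⟨85, 1, 13, 0, 0, 1⟩, ⟨83,
  1, 14, 0, 0, 1⟩, ⟨43, 2, 14, 0, 0, 2⟩]]

theorem g300 : (eY eJ).geF 8 77 [(0, 0)] [(3, 3)] [(0, 0)] [(3, 3)] l300 = true := by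
  decide +kernel

theorem m300 : WJ.lfM eJ 8 75 [(0, 0)] [(3, 3)]
    (fun m => (WJ.nm (eY eJ) 8 77 [(0, 0)] [(3, 3)] m).cjy eJ 8) l300 [] = true := by
  decide +kernel

theorem h292 : eJ.htAF 8 75 0 61 = true := by
  decide +kernel

end Vale.Agent.P236TD
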