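import Vale.Agent.P236JG.Dat
import Vale.Agent.P236JY.EmF
import Vale.Agent.P236JT.Lf

/-!
# P236TD / KfC : checks in the stems 279 and 283 of `Y`
-/

namespace Vale.Agent.P236TD

open Vale.Agent.P236EL Vale.Agent.P236KE Vale.Agent.P236K3 Vale.Agent.P236F Vale.Agent.P236JX
  Vale.Agent.P236JT Vale.Agent.P236JG

/-- the class of stem 279 -/
def l279 : List Tr :=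
  [⟨7, 0, 9, 1, 0, 1⟩, ⟨51, 1, 9, 1, 0, 2⟩, ⟨54, 0, 11, 0, 0, 2⟩, ⟨101, 2, 9, 0, 0, 2⟩, ⟨95, 2, 9,
  1, 0, 1⟩, ⟨98, 1, 11, 0, 0, 2⟩, ⟨53, 2, 11, 0, 0, 1⟩, ⟨96, 1, 12, 0, 0, 1⟩]

/-- a class of stem 283 -/
def l283 : List Tr :=
  [⟨7, 0, 6, 2, 0, 1⟩, ⟨63, 4, 3, 1, 0, 1⟩, ⟨111, 4, 4, 0, 0, 1⟩, ⟨111, 7, 0, 1, 0, 1⟩, ⟨113, 8,
  0, 0, 0, 1⟩, ⟨10, 1, 7, 1, 0, 1⟩, ⟨15, 3, 5, 1, 0, 1⟩, ⟨51, 1, 6, 2, 0, 2⟩, ⟨54, 0, 8, 1, 0, 1⟩,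
  ⟨54, 3, 4, 2, 0, 1⟩, ⟨59, 0, 9, 0, 0, 1⟩, ⟨59, 3, 5, 1, 0, 1⟩, ⟨59, 6, 1, 2, 0, 1⟩, ⟨66, 5, 4,
  0, 0, 2⟩, ⟨68, 9, 0, 0, 0, 1⟩, ⟨101, 2, 6, 1, 0, 2⟩, ⟨106, 1, 8, 0, 0, 1⟩, ⟨106, 4, 4, 1, 0, 2⟩,
  ⟨52, 3, 5, 2, 0, 1⟩, ⟨61, 8, 0, 2, 0, 1⟩, ⟨95, 2, 6, 2, 0, 1⟩, ⟨98, 1, 8, 1, 0, 1⟩, ⟨98, 4, 4,
  2, 0, 2⟩, ⟨100, 0, 10, 0, 0, 2⟩, ⟨100, 3, 6, 1, 0, 2⟩, ⟨100, 6, 2, 2, 0, 2⟩, ⟨102, 4, 5, 1, 0,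
  1⟩, ⟨102, 7, 1, 2, 0, 2⟩, ⟨103, 7, 1, 2, 0, 2⟩, ⟨105, 5, 4, 1, 0, 1⟩, ⟨105, 8, 0, 2, 0, 1⟩,
  ⟨108, 4, 6, 0, 0, 2⟩, ⟨108, 7, 2, 1, 0, 2⟩, ⟨110, 6, 4, 0, 0, 2⟩]

theorem a279 : (eY eJ).geF 5 71 [(0, 0)] [(3, 3)] [(0, 0)] [(0, 3)] [] = true := by
  decide +kernel

theorem b279 : (eY eJ).geF 5 71 [(0, 3)] [(3, 6)] [(0, 0)] [(3, 3)] [l279] = true := by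
  decide +kernel

theorem c279 : (eY eJ).geF 5 71 [(0, 11), (3, 3)] [(3, 14), (6, 6)] [(0, 0)] [(3, 3)] [] = true := by
  decide +kernel

theorem h279 : (eY eJ).htAF 5 71 0 62 = true := by
  decide +kernel

theorem e283 : (eY eJ).exCF 5 72 8 3 l283 = true := by
  decide +kernel

theorem m279 : WJ.lfM (eY eJ) 5 71 [(0, 0)] [(0, 11), (3, 3)] (WJ.nm (eY eJ) 5 71 [(0, 0)] [(3, 3)]) [l279]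
    [(WJ.nm (eY eJ) 5 72 [(0, 8)] [(0, 11)] l283).cpp eJ 5] = true := by
  decide +kernel

end Vale.Agent.P236TD
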