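import Vale.Agent.P236JG.Dat
import Vale.Agent.P236JY.EmF
import Vale.Agent.P236JT.Lf

/-!
# P236TD / KfD : checks in the stem 313 of `Y`
-/

namespace Vale.Agent.P236TD

open Vale.Agent.P236EL Vale.Agent.P236KE Vale.Agent.P236K3 Vale.Agent.P236F Vale.Agent.P236JX
  Vale.Agent.P236JT Vale.Agent.P236JG

/-- the class of stem 279 -/
def k279 : List Tr :=
  [⟨7, 0, 9, 1, 0, 1⟩, ⟨51, 1, 9, 1, 0, 2⟩, ⟨54, 0, 11, 0, 0, 2⟩, ⟨101, 2, 9, 0, 0, 2⟩, ⟨95, 2, 9,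
  1, 0, 1⟩, ⟨98, 1, 11, 0, 0, 2⟩, ⟨53, 2, 11, 0, 0, 1⟩, ⟨96, 1, 12, 0, 0, 1⟩]

theorem m313 : WJ.lfM (eY eJ) 7 80 [(0, 0)] [(3, 3)]
    (fun m => (WJ.nm (eY eJ) 5 71 [(0, 0)] [(3, 3)] m).cb2 (eY eJ) 90 5 (3 ^ 0)) [k279] [] = true := by
  decide +kernel

theorem h313 : (eY eJ).htAF 7 80 0 68 = true := by
  decide +kernel

end Vale.Agent.P236TD
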