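import Vale.Agent.P236TD.KfA
import Vale.Agent.P236TD.KfB
import Vale.Agent.P236TD.KfC
import Vale.Agent.P236TD.KfD
import Vale.Agent.P236JT.Fa
import Vale.Agent.P236JG.Base
import Vale.Agent.P236EL.Kf1
import Vale.Agent.P236KE.Y100.Ok
import Vale.Agent.P236SY.KF

/-!
# P236TD / KfJ : the facts about the cohomology which are used in Lemma K
-/

noncomputable section

namespace Vale.Agent.P236TD

open Vale.Agent.P251.F Vale.Agent.P251.I Vale.Agent.P236SY Vale.Agent.P236R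
open Vale.Agent.P236EL Vale.Agent.P236KE Vale.Agent.P236K3 Vale.Agent.P236F AddSubgroup
open Vale.Agent.P236KE.S90 Vale.Agent.P236JX Vale.Agent.P236JT Vale.Agent.P236JG

variable [hp : Fact (Nat.Prime 3)] {t : Cob Laz 1} (h : HK) (ht : IsT1 3 t)

include h ht

theorem kf_p290 : ZeroPP t 74 72 6 := fun G hG => by
  have H := w3 h ht
  obtain ⟨u, hu, h1⟩ := rep0 H.Y g290 (x := G) (degY ▸ hG)
  have h2 := (((lf_nm (H.Y.cx.ok 6) 74 _ _).jy H).e0 H).memB H.Y (hv H.Y h282) m290 h1 hu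
  rwa [degY] at h2

theorem kf_j300 : ZeroJ t 77 75 8 := fun G hG => by
  have H := w3 h ht
  obtain ⟨u, hu, h1⟩ := rep0 H.Y g300 (x := G) (degY ▸ hG)
  have h2 := ((lf_nm (H.Y.cx.ok 8) 77 _ _).jy H).memB H.S (hv H.S h292) m300 h1 hu
  rwa [P236JG.degS] at h2

theorem rep279 {G} (hG : G ∈ ZY t 71 5) : ∃ u ∈ spn (iJ eJ 3 5) [l279],
    RcJ jY (θY t) 5 (71 : ℕ) (P236J3.mI [(0, 0)]) (P236J3.mI [(3, 3)]) G u :=
  have H := (w3 h ht).Y
  (H.ajSkip _ _ (H.geF a279) (rep H b279)).all G (degY ▸ hG)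

theorem kf_b279 {x c} (h33 : Grk 1 1 x c) :
    ∀ G ∈ ZY t 71 5, lc _ (show 2 + 5 = 7 from rfl) c G ∈ BY t 80 7 := fun G hG => by
  have H := (w3 h ht).Y
  obtain ⟨u, hu, h1⟩ := rep279 h ht hG
  have h2 := ((lf_nm (H.cx.ok 5) 71 _ _).b2 H (f := 0) h33 (show 2 + 5 = 7 from rfl)).memB H
    (hv H h313) m313 h1 hu
  rwa [degY] at h2

omit hp h ht in
theorem surj_of {F G : Fin 3 → Cob Laz 5} (hF : F ∈ ZY t 72 5)
    (hG : G ∈ zmultiples ![F 1, F 2, 0] ⊔ BY t 71 5) :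
    ∃ F ∈ ZY t 72 5, G - ![F 1, F 2, 0] ∈ BY t 71 5 := by
  obtain ⟨_, ⟨n, rfl⟩, e, he, rfl⟩ := mem_sup.1 hG
  refine ⟨n • F, zsmul_mem hF n, (congrArg (· ∈ _) ?_).mp he⟩
  funext i
  fin_cases i <;> simp [Matrix.vecHead, Matrix.vecTail]

theorem kf_s279 : SurjP t 72 71 5 := fun G hG => by
  have W := w3 h ht
  have H := W.Y
  obtain ⟨u, hu, h1⟩ := rep279 h ht hG
  obtain ⟨-, -, F, hF⟩ := H.exJ (H.exCF e283) (H.hi (H.htAF h282)) (by decide)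
  have h2 := (lf_nm (H.cx.ok 5) 71 _ _).mem H (.one (W.pp (cv_nm (H.cx.ok 5) hF)))
    (H.hgStep _ _ _ (H.geF c279) .nil (hv H h279)) m279 h1 hu
  have h3 := hF.zc
  rw [degY] at h2 h3
  exact surj_of h3 h2

/-- **the facts for Lemma K** -/
theorem kf : KF t := by
  obtain ⟨x, c, hx⟩ := exists_grk 1 1
  exact ⟨fun _ _ h => Y100.vy ht h, kf_j302 ht, kf_j300 h ht, kf_p292 ht, kf_p290 h ht, kf_p282 ht,
    kf_s279 h ht, c, hx.zc (by norm_num), kf_b279 h ht hx, kf_b278 ht hx⟩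

end Vale.Agent.P236TD

end
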