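import Vale.Agent.P236K.Sk
import Vale.Agent.P236Z.Cat.Api0

/-!
# P236, the Toda cell: the interface

* `TIN j`: a class `f` on the Moore spectrum of filtration `< 2`, its Bockstein `θ` in the stem
  `4 * 3 ^ (j + 1) - 2`, and a lift `x` of `θ ^ 3` to filtration two which is killed by nine and by
  `π_4 (S / 3)`;
* `CUBE j`: the functional coaction of a map of filtration `< 2` has a nonzero third power;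
* `TODA j`: these two statements imply `EXF (j + 1)`.
-/

open CategoryTheory MonoidalCategory MonObj

namespace Vale.Agent.P236TD

open Vale.Agent.P251.St Vale.Agent.P251.H
open Vale.Agent.P251.I (SpaceFunctor)
open Vale.Agent.P236Z Vale.Agent.P236Z.Cat

/-- The input of the Toda construction, in one model. -/
def TINat (j : ℕ) (T : SHCat) {H : T.C} (e : 𝟙_ T.C ⟶ H) {M : T.C}
    (δ : M ⟶ (𝟙_ T.C)⟦(1 : ℤ)⟧) : Prop :=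
  ∃ (S : T.C) (_ : S ≅ (𝟙_ T.C)⟦(4 * 3 ^ (j + 1) - 2 : ℤ)⟧) (f : S⟦(1 : ℤ)⟧ ⟶ M)
    (θ : S ⟶ 𝟙_ T.C), f ≫ δ = θ⟦(1 : ℤ)⟧' ∧ ¬ Tr.AF e 2 f ∧
    ∃ (B : T.C) (p : B ⟶ 𝟙_ T.C) (x : S ⊗ S ⊗ S ⟶ B), Tr.AF e 2 p ∧
      x ≫ p = (θ ⊗ₘ θ ⊗ₘ θ) ≫ (λ_ _).hom ≫ (λ_ _).hom ∧ (9 : ℤ) • x = 0 ∧
      ∀ v : (𝟙_ T.C)⟦(4 : ℤ)⟧ ⟶ M, v ⊗ₘ x = 0

/-- The input of the Toda construction. -/
def TIN (j : ℕ) : Prop :=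
  ∀ (T : SHCat) (_ : SpaceFunctor T.C) (H : T.C) (e : 𝟙_ T.C ⟶ H), Tr.IsHF 3 e →
    ∀ (M : T.C) (i : 𝟙_ T.C ⟶ M) (δ : M ⟶ (𝟙_ T.C)⟦(1 : ℤ)⟧),
      Dist ((3 : ℤ) • 𝟙 (𝟙_ T.C)) i δ → TINat j T e δ

/-- The functional coaction `w` of a map `g : X ⟶ 𝟙` of filtration `< 2`, `X` a Moore spectrum with
bottom cell in dimension `4 * 3 ^ (j + 1) - 2`, has a nonzero third power. -/
def CUBE (j : ℕ) : Prop :=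
  ∀ (T : SHCat) (_ : SpaceFunctor T.C) (H : T.C) [MonObj H] [IsCommMonObj H], Tr.IsHF 3 η[H] →
    ∀ (S X C : T.C) (_ : S ≅ (𝟙_ T.C)⟦(4 * 3 ^ (j + 1) - 2 : ℤ)⟧) (b : S ⟶ X)
      (d : X ⟶ S⟦(1 : ℤ)⟧) (g : X ⟶ 𝟙_ T.C) (c : 𝟙_ T.C ⟶ C) (q : C ⟶ X⟦(1 : ℤ)⟧) (r : C ⟶ H),
      Dist ((3 : ℤ) • 𝟙 S) b d → Dist g c q → ¬ Tr.AF η[H] 2 g → c ≫ r = η[H] →
      ∃ w : (S⟦(1 : ℤ)⟧)⟦(1 : ℤ)⟧ ⟶ H ⊗ H,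
        r ≫ (λ_ H).inv ≫ η[H] ▷ H = r ≫ (ρ_ H).inv ≫ H ◁ η[H] + q ≫ d⟦(1 : ℤ)⟧' ≫ w ∧
        (w ⊗ₘ w ⊗ₘ w) ≫ Step.mul3 (H ⊗ H) ≠ 0

/-- (helper81) the Toda construction -/
def TODA (j : ℕ) : Prop := TIN j → CUBE j → P236K.EXF (j + 1)

end Vale.Agent.P236TD
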