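import Vale.Agent.P236TD.Dual
import Vale.Agent.P236TD.Defs
import Vale.Agent.P236Z.Top.GeoAll
import Vale.Agent.P236Z.Cat.Tower
import Vale.Agent.P236Z.Dt.HF

/-!
# P236, the Toda cell: the main theorem
-/

open CategoryTheory MonoidalCategory Limits Pretriangulated
open Vale.Agent.P251 Vale.Agent.P251.T Vale.Agent.P251.M Vale.Agent.P251.H
open Vale.Agent.P236Z Vale.Agent.P236Z.Cat Vale.Agent.P236Z.SS

noncomputable section

namespace Vale.Agent.P236TD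

/-- The Toda construction. -/
theorem toda (j : ℕ) : TODA j := by
  intro hT hC
  obtain ⟨W⟩ := stTower
  have hg : W.Geo := stGeo W
  have := locallySmall_self.{0} W.T₀.C
  obtain ⟨H, _, _, he⟩ := Dt.exists_HFmon W.F (p := 3) (by norm_num)
  obtain ⟨M, i, δ, D⟩ := exists_cone ((3 : ℤ) • 𝟙 (𝟙_ W.T₀.C))
  obtain ⟨S, s, f, θ, hf, hf', B, p, x, hp, hx, h9, hv⟩ :=
    hT (W.T₀.toSH W.stable) W.F H _ he M i δ D
  have hS : Sph (W := W) S (4 * 3 ^ (j + 1) - 2) := ⟨s⟩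
  have hd : (0 : ℤ) ≤ 4 * 3 ^ (j + 1) - 2 := by
    have : (1 : ℤ) ≤ 3 ^ (j + 1) := one_le_pow₀ (by norm_num)
    omega
  obtain ⟨X, b, d, g, n, E, hb, hg'⟩ := dual_in D hf hf'
  obtain ⟨C, c, q, F⟩ := exists_cone g
  have cX : Tr.Cell (fun k => k ≠ 0) X := cone_cell E hS hS (by omega) (by omega)
  obtain ⟨r, hr⟩ := F.desc₂ (MonObj.one (X := H)) (cX.hom_zero he.conc _)
  obtain ⟨w, hw, hw3⟩ := hC (W.T₀.toSH W.stable) W.F H he S X C s b d g c q r E F hg' hr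
  let S' := (𝟙_ W.T₀.C)⟦(3 * (4 * 3 ^ (j + 1) - 2) + 4 : ℤ)⟧
  have hS' : Sph (W := W) S' (3 * (4 * 3 ^ (j + 1) - 2) + 4) := ⟨Iso.refl _⟩
  obtain ⟨X', b', d', E'⟩ := exists_cone ((3 : ℤ) • 𝟙 S')
  obtain ⟨A, K, iA, jA, φ, iK, pK, ψ, G, DA, hφ, DK, hG, hG'⟩ := exists_G hg he hd hS E F hr
    (w := w) (by rw [eL, eR, Category.assoc]; exact hw) hw3 hS' E'
  have s3 : Sph (W := W) (S ⊗ S ⊗ S) (3 * (4 * 3 ^ (j + 1) - 2)) :=
    (hS.tensor (hS.tensor hS)).cast (by ring)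
  obtain ⟨g', hg''⟩ := exists_four he hS E (by
      rw [← rot_natural_assoc]
      refine congrArg (_ ≫ ·) ?_
      simp [rot]
      monoidal) hS' E' DA hφ DK hG hG' hp (x := (n * n * n) • x) (by
      have h1 : ∀ {A A' B B' : W.T₀.C} (u : A ⟶ B) (v : A' ⟶ B'), (n • u) ⊗ₘ v = n • (u ⊗ₘ v) :=
        fun u v => by
          rw [MonoidalCategory.tensorHom_def, MonoidalCategory.tensorHom_def,
            ← Preadditive.zsmul_comp]
          exact congrArg (· ≫ _) (tensorRight _).map_zsmul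
      have h2 : ∀ {A A' B B' : W.T₀.C} (u : A ⟶ B) (v : A' ⟶ B'), u ⊗ₘ (n • v) = n • (u ⊗ₘ v) :=
        fun u v => by
          rw [MonoidalCategory.tensorHom_def, MonoidalCategory.tensorHom_def,
            ← Preadditive.comp_zsmul]
          exact congrArg (_ ≫ ·) (tensorLeft _).map_zsmul
      rw [Preadditive.zsmul_comp, hx, tensorHom_comp_tensorHom_assoc, tensorHom_comp_tensorHom, hb,
        h1, h1, h2, h2, h2, smul_smul, smul_smul, Preadditive.zsmul_comp])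
    (by rw [smul_comm, h9, smul_zero]) fun y => by
      rw [Functor.map_zsmul, Preadditive.comp_zsmul, dual_zero D s3 hS' E' hv y, smul_zero]
  obtain ⟨f', hf''⟩ := dual_out D E' hg''
  obtain ⟨a⟩ := (hS'.shift 1).iso (Sph.cast (d := 4 * 3 ^ (j + 1 + 1) - 1) ⟨Iso.refl _⟩ (by ring))
  exact ⟨W.T₀.toSH W.stable, W.F, H, _, M, i, δ, a.inv ≫ f', he, D, fun k => hf'' (by
    simpa using k.pre a.hom)⟩

end Vale.Agent.P236TD
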