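import Vale.Agent.P236JT.Lf

/-!
# P236TD / Af : non-vanishing on the sum of two affine families
-/

noncomputable section

namespace Vale.Agent.P236TD

open Vale.Agent.P251.F Vale.Agent.P251.I Vale.Agent.P236SY Vale.Agent.P236R MvPolynomial
open Vale.Agent.P236EL Vale.Agent.P236KE Vale.Agent.P236K2 Vale.Agent.P236K3 Vale.Agent.P236F
open Vale.Agent.P236J3 Vale.Agent.P236JF Vale.Agent.P236JX Vale.Agent.P236JT AddSubgroup

/-- the sum of two values does not lie in the span of the values of `ks` and `ks'` -/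
def af2 (E : JD) (s T : Nat) (c' : Cs) (o o' : List Tr → WJ) (ks ks' : List (List Tr))
    (m m' : List Tr) : Bool :=
  WJ.lf0 E s T [(0, 0)] c' o (WJ.lf0 E s T [(0, 0)] c' o'
    (WJ.runW (E.D.L s) T [(0, 0)] c' (ks.map o) fun k =>
      WJ.runW (E.D.L s) T [(0, 0)] c' (ks'.map o') fun k' =>
        WJ.exa (E.D.L s) T [(0, 0)] c' (o m) fun p =>
          WJ.exa (E.D.L s) T [(0, 0)] c' (o' m') fun q =>
            E.noL s T [(0, 0)] c' (List.append k k') ((cst' p).add (cst' q))))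

variable [hp : Fact (Nat.Prime 3)] {G : ℕ → Type} [∀ q, Fintype (G q)] [DecidableEq (G 0)]
  {X₀ X₁ W W' : Type} {S : X₀ → (W → A) → Prop} {S' : X₁ → (W' → A) → Prop} {i₀ : W → ℕ}
  {i₁ : W' → ℕ} {R : Rs 3 K G} {θ : G 0 → G 0 → Cob Laz 1} {E : JD} {ix : ∀ q, G (q + 1) → ℕ}
  {s T Tm s3 s4 : ℕ} {c' : Cs} {F : X₀ → G 0 → Cob Laz s} {F' : X₁ → G 0 → Cob Laz s}
  {o o' : List Tr → WJ} {w : W → A} {w' : W' → A} {ks ks' : List (List Tr)} {m m' : List Tr}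
  {𝒵 : AddSubgroup (G 0 → Cob Laz s)} {x : X₀} {x' : X₁}

/-- **two affine families** -/
theorem aff2 (H : WxJ R θ E ix Tm s3 s4) (h : LF S i₀ R θ E ix s F o)
    (h' : LF S' i₁ R θ E ix s F' o') (hc : af2 E s T c' o o' ks ks' m m' = true) (hx : S x w)
    (hx' : S' x' w') (hw : w - vL i₀ m ∈ spn i₀ ks) (hw' : w' - vL i₁ m' ∈ spn i₁ ks')
    (hz : ∀ z ∈ 𝒵, RcJ R θ s T ⊤ (mI c') z 0) :
    F x + F' x' ∉ 𝒵 ⊔ BQ 3 θ (R.deg 0) T 3 s := fun hF => by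
  obtain ⟨f, h⟩ := h
  obtain ⟨f', h'⟩ := h'
  obtain ⟨h1, h2, h3, h4, h5, h6⟩ := lf0_spec H h hc
  obtain ⟨-, -, -, -, k5, k6⟩ := lf0_spec H h' h6
  obtain ⟨k, a1, a2⟩ := fp_run (H.cx.ok s) h k6
  obtain ⟨k', b1, b2⟩ := fp_run (H.cx.ok s) h' a2
  obtain ⟨-, p, c1, c2⟩ := fp_exa (H.cx.ok s) (h m) b2
  obtain ⟨-, q, d1, d2⟩ := fp_exa (H.cx.ok s) (h' m') c2
  obtain ⟨z, h7, e, he, h8⟩ := mem_sup.1 hF
  refine H.wd.ne h3 h1.le (((h5 x w hx).add (k5 x' w' hx')).sub (mI_top.symm ▸ hz z h7)) le_rfl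
    (j_le h4) (fun h9 => H.noL h1.le h2 h4 (List.rel_append a1 b1) (c1.add d1) d2 ?_) (by
      rwa [← h8, add_sub_cancel_left])
  have h11 := map_spn (f := f') hw' []
  rw [show List.append (ks'.map fun m => f' (vL i₁ m)) [] = _ from List.append_nil _] at h11
  have h10 := sub_mem (sub_mem (mem_sup_right (mI_top.symm ▸ h9)) (mem_sup_left (map_spn (f := f) hw
    (ks'.map fun m => f' (vL i₁ m))))) (mem_sup_left (cl_right _ h11))
  rw [map_sub, map_sub] at h10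
  exact (congrArg (· ∈ _) (by abel)).mp h10

/-- the three cosets -/
theorem spn3 {l : List Tr} (h : w ∈ spn i₀ (l :: ks)) : w - vL i₀ [] ∈ spn i₀ ks ∨
    w - vL i₀ l ∈ spn i₀ ks ∨ w - vL i₀ (twL l) ∈ spn i₀ ks := by
  obtain ⟨v, hv, rfl | rfl | rfl⟩ := spn_cons h
  · exact .inl (by rwa [show vL i₀ [] = 0 from rfl, sub_zero])
  · exact .inr (.inl (by rwa [add_sub_cancel_left]))
  · exact .inr (.inr (by rwa [add_sub_cancel_left]))

end Vale.Agent.P236TD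

end
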