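import Vale.Agent.P236TD.Van
import Vale.Agent.P236Z.SS.Ten

/-!
# P236, the Toda cell: the functional coaction of the norm

* `crit`: the functional coaction of a map of filtration two vanishes;
* `det`: the functional coaction on the orbits of the norm is the third power.
-/

open CategoryTheory MonoidalCategory Limits Pretriangulated
open Functor.LaxMonoidal Functor.OplaxMonoidal
open Vale.Agent.P251 Vale.Agent.P251.T Vale.Agent.P251.M Vale.Agent.P251.H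
open Vale.Agent.P236Z Vale.Agent.P236Z.Cat Vale.Agent.P236Z.SS

noncomputable section

namespace Vale.Agent.P236TD

section alg

variable {D : Type 1} [Category.{0} D] [MonoidalCategory D] (H : D) [MonObj H]

/-- `x ↦ 1 ⊗ x` -/
def eL : H ⟶ H ⊗ H := (λ_ H).inv ≫ MonObj.one (X := H) ▷ H

/-- `x ↦ x ⊗ 1` -/
def eR : H ⟶ H ⊗ H := (ρ_ H).inv ≫ H ◁ MonObj.one (X := H)

/-- the action on the left factor -/
def actL (B : D) : H ⊗ (H ⊗ B) ⟶ H ⊗ B := (α_ H H B).inv ≫ MonObj.mul (X := H) ▷ B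

theorem eL_act : H ◁ eL H ≫ actL H H = 𝟙 _ := by
  rw [eL, actL, MonoidalCategory.whiskerLeft_comp, Category.assoc,
    associator_inv_naturality_middle_assoc, ← comp_whiskerRight, MonObj.mul_one]
  monoidal

theorem eR_act : H ◁ eR H ≫ actL H H = MonObj.mul (X := H) ≫ eR H := by
  rw [eR, actL, MonoidalCategory.whiskerLeft_comp, Category.assoc,
    associator_inv_naturality_right_assoc, whisker_exchange, rightUnitor_inv_naturality_assoc]
  monoidal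

theorem one_act (B : D) : MonObj.one (X := H) ▷ (H ⊗ B) ≫ actL H B = (λ_ _).hom := by
  rw [actL, associator_inv_naturality_left_assoc, ← comp_whiskerRight, MonObj.one_mul]
  monoidal

theorem hur_act {A B : D} (y : A ⟶ H ⊗ B) :
    ((λ_ A).inv ≫ MonObj.one (X := H) ▷ A) ≫ H ◁ y ≫ actL H B = y := by
  rw [Category.assoc, ← whisker_exchange_assoc, one_act, leftUnitor_naturality,
    Iso.inv_hom_id_assoc]

@[reassoc] theorem act_nat {A B : D} (f : A ⟶ B) :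
    H ◁ H ◁ f ≫ actL H B = actL H A ≫ H ◁ f := by
  rw [actL, actL, associator_inv_naturality_right_assoc, whisker_exchange, Category.assoc]

theorem act_assoc (B : D) : H ◁ actL H B ≫ actL H B = actL H (H ⊗ B) ≫ actL H B := by
  simp only [actL, MonoidalCategory.whiskerLeft_comp, Category.assoc]
  rw [associator_inv_naturality_middle_assoc, associator_inv_naturality_left_assoc,
    ← comp_whiskerRight, ← comp_whiskerRight, MonObj.mul_assoc]
  monoidal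

theorem exists_ev {T A B E : D} (z : T ⟶ H ⊗ (A ⊗ B)) (r : A ⟶ H) (y : B ⟶ H ⊗ E) :
    ∃ z' : T ⟶ H ⊗ B, z ≫ H ◁ ((r ⊗ₘ y) ≫ actL H E) ≫ actL H E = z' ≫ H ◁ y ≫ actL H E := by
  refine ⟨z ≫ H ◁ (r ▷ B) ≫ actL H B, ?_⟩
  rw [MonoidalCategory.tensorHom_def, MonoidalCategory.whiskerLeft_comp,
    MonoidalCategory.whiskerLeft_comp, Category.assoc, Category.assoc, act_assoc, act_nat_assoc,
    Category.assoc, Category.assoc]

variable [SymmetricCategory D]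

theorem eR_mul : eR H ▷ (H ⊗ H) ≫ MonObj.mul (X := H ⊗ H) = actL H H := by
  rw [eR, actL, MonObj.tensorObj.mul_def, comp_whiskerRight, Category.assoc, ← id_tensorHom,
    tensorμ_natural_left_assoc, tensorHom_comp_tensorHom, id_whiskerRight, Category.id_comp,
    MonObj.one_mul, MonoidalCategory.tensorHom_def', ← Category.assoc, ← Category.assoc]
  congr 1
  simp only [tensorμ, braiding_tensorUnit_left, Category.assoc]
  monoidal

theorem tensorμ_tensorμ (A B C E : D) : tensorμ A B C E ≫ tensorμ A C B E = 𝟙 _ := by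
  simp only [tensorμ, Category.assoc, Iso.inv_hom_id_assoc, whiskerLeft_hom_inv_assoc]
  rw [← MonoidalCategory.whiskerLeft_comp_assoc A ((β_ B C).hom ▷ E), ← comp_whiskerRight,
    SymmetricCategory.symmetry]
  simp

theorem mix_mul3 : mix H H H H H H ≫ Step.mul3 (H ⊗ H) = Step.mul3 H ⊗ₘ Step.mul3 H := by
  rw [mix, Step.mul3, Step.mul3, MonObj.tensorObj.mul_def, Category.assoc,
    ← MonoidalCategory.whiskerLeft_comp_assoc, reassoc_of% tensorμ_tensorμ,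
    tensorμ_natural_right_assoc, reassoc_of% tensorμ_tensorμ, tensorHom_comp_tensorHom]

end alg

section crit

variable {T : Type 1} [Category.{0} T] [Preadditive T] [HasZeroObject T] [HasShift T ℤ]
  [∀ n : ℤ, (shiftFunctor T n).Additive] [Pretriangulated T] [MonoidalCategory T]
  [SymmetricCategory T] [TensorTriangulated T] {H : T} [MonObj H]

omit [HasZeroObject T] [HasShift T ℤ] [∀ n : ℤ, (shiftFunctor T n).Additive] [Pretriangulated T]
  [SymmetricCategory T] [TensorTriangulated T] in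
theorem whisk_of_null [MonoidalPreadditive T] {A B : T} {f : A ⟶ B}
    (h : Tr.Null (MonObj.one (X := H)) f) : H ◁ f = 0 := by
  have h1 : H ◁ Tr.hur (MonObj.one (X := H)) B ≫ actL H B = 𝟙 _ := by
    rw [Tr.hur, actL, MonoidalCategory.whiskerLeft_comp, Category.assoc,
      associator_inv_naturality_middle_assoc, ← comp_whiskerRight, MonObj.mul_one]
    monoidal
  rw [← Category.comp_id (H ◁ f), ← h1, ← MonoidalCategory.whiskerLeft_comp_assoc, h,
    MonoidalPreadditive.whiskerLeft_zero, zero_comp]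

omit [MonObj H] in
theorem whisk_shift {A B : T} {f : A ⟶ B} (h : H ◁ f = 0) : H ◁ f⟦(1 : ℤ)⟧' = 0 := by
  have h1 := ((tensorLeft H).commShiftIso (1 : ℤ)).hom.naturality f
  change H ◁ f⟦(1 : ℤ)⟧' ≫ _ = _ ≫ (H ◁ f)⟦(1 : ℤ)⟧' at h1
  rwa [h, Functor.map_zero, comp_zero, Preadditive.IsIso.comp_right_eq_zero] at h1

/-- The functional coaction of a map of filtration two vanishes. -/
theorem crit {K B C A : T} {f : K ⟶ B} {c : B ⟶ C} {q : C ⟶ K⟦(1 : ℤ)⟧} (D : Dist f c q)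
    (b : B ⟶ 𝟙_ T) (r : C ⟶ H) (hr : c ≫ r = b ≫ MonObj.one (X := H))
    (hK : ∀ u : K⟦(1 : ℤ)⟧ ⟶ H, u = 0) (h : Tr.AF (MonObj.one (X := H)) 2 (f ≫ b))
    (hA : ∀ u : A ⟶ H, u = 0) (z : A ⟶ H ⊗ C) : z ≫ H ◁ r = 0 := by
  obtain ⟨B', g, k, e, hg, hk⟩ := h
  obtain ⟨C', c', q', D'⟩ := exists_cone k
  obtain ⟨r', hr'⟩ := D'.desc₂ _ ((Tr.null_unit_iff k).1 hk)
  obtain ⟨φ, h1, h2⟩ := D.map₃ D' g b e
  obtain ⟨u, hu⟩ := D.desc₃ (r - φ ≫ r') (by
    rw [Preadditive.comp_sub, reassoc_of% h1, hr, hr', sub_self])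
  rw [hK u, comp_zero, eq_comm, sub_eq_zero] at hu
  obtain ⟨y, hy⟩ := (Ms.dist_r D' H).lift₃ (z ≫ H ◁ φ) (by
    rw [Category.assoc, ← MonoidalCategory.whiskerLeft_comp_assoc, ← h2,
      MonoidalCategory.whiskerLeft_comp, whisk_shift (whisk_of_null hg.null), comp_zero, zero_comp,
      comp_zero])
  have hy0 : y = 0 := by rw [← cancel_mono (ρ_ H).hom, hA (y ≫ _), zero_comp]
  rw [hu, MonoidalCategory.whiskerLeft_comp, ← reassoc_of% hy, hy0, zero_comp]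

end crit

variable {W : Tower} {H : W.T₀.C} [MonObj H] {nm : (Nm W).obj H ⟶ (tv W).obj H}

/-- the norm map of `H ⊗ H` -/
def nm₂ (nm : (Nm W).obj H ⟶ (tv W).obj H) : (Nm W).obj (H ⊗ H) ⟶ (tv W).obj (H ⊗ H) :=
  δ (Nm W) H H ≫ (nm ⊗ₘ nm) ≫ μ (tv W) H H

theorem U_nm₂ (h1 : (U W).map nm ≫ (tU W H).hom = (nu H).hom ≫ Step.mul3 H) :
    (U W).map (nm₂ nm) ≫ (tU W _).hom = (nu _).hom ≫ Step.mul3 (H ⊗ H) := by
  rw [← cancel_epi ((U W).map (μ (Nm W) H H)), ← cancel_epi (μ (U W) _ _), nu_tensor_assoc,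
    mix_mul3, nm₂, ← Functor.map_comp_assoc, Functor.Monoidal.μ_δ_assoc, Functor.map_comp,
    Category.assoc, ← μ_natural_assoc, tU_tensor, tensorHom_comp_tensorHom,
    tensorHom_comp_tensorHom, h1]

variable (h2 : ε (Nm W) ≫ (Nm W).map (MonObj.one (X := H)) ≫ nm =
  ε (tv W) ≫ (tv W).map (MonObj.one (X := H)))

include h2 in
theorem eL_nm₂ : (Nm W).map (eL H) ≫ nm₂ nm = nm ≫ (tv W).map (eL H) := by
  rw [eL, nm₂, Functor.map_comp, Functor.map_comp, Category.assoc, ← δ_natural_left_assoc,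
    Functor.Monoidal.map_leftUnitor_inv, Functor.Monoidal.map_leftUnitor_inv, Category.assoc,
    Category.assoc, Category.assoc, Category.assoc, Functor.Monoidal.μ_δ_assoc,
    ← μ_natural_left, leftUnitor_inv_naturality_assoc, ← comp_whiskerRight_assoc,
    ← comp_whiskerRight_assoc, ← h2, MonoidalCategory.tensorHom_def', whisker_exchange_assoc,
    Category.assoc, whisker_exchange_assoc, ← comp_whiskerRight_assoc, Category.assoc,
    ← whisker_exchange_assoc]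

include h2 in
theorem eR_nm₂ : (Nm W).map (eR H) ≫ nm₂ nm = nm ≫ (tv W).map (eR H) := by
  rw [eR, nm₂, Functor.map_comp, Functor.map_comp, Category.assoc, ← δ_natural_right_assoc,
    Functor.Monoidal.map_rightUnitor_inv, Functor.Monoidal.map_rightUnitor_inv, Category.assoc,
    Category.assoc, Category.assoc, Category.assoc, Functor.Monoidal.μ_δ_assoc,
    ← μ_natural_right, rightUnitor_inv_naturality_assoc, ← MonoidalCategory.whiskerLeft_comp_assoc,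
    ← MonoidalCategory.whiskerLeft_comp_assoc, ← h2, MonoidalCategory.tensorHom_def,
    ← whisker_exchange_assoc, Category.assoc, ← whisker_exchange_assoc,
    ← MonoidalCategory.whiskerLeft_comp_assoc, Category.assoc, whisker_exchange_assoc]

include h2 in
/-- The functional coaction on the orbits of the norm. -/
theorem det (h1 : (U W).map nm ≫ (tU W H).hom = (nu H).hom ≫ Step.mul3 H) {C S A E : W.T₀.C}
    {r : C ⟶ H} {t : C ⟶ S} {w : S ⟶ H ⊗ H} (hw : r ≫ eL H = r ≫ eR H + t ≫ w)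
    {Φ : E ⟶ (orb W).obj ((Nm W).obj C)} {t' : E ⟶ A} {κ : A ⟶ (U W).obj ((Nm W).obj S)}
    (hΦ : Φ ≫ (orb W).map ((Nm W).map t) = t' ≫ κ ≫ pi _) {z : A ⟶ H ⊗ E}
    (hz : z ≫ H ◁ t' = Tr.hur (MonObj.one (X := H)) A) (a0 : ∀ u : A ⟶ H, u = 0)
    (a1 : ∀ u : A ⟶ H ⊗ S, u = 0) (a2 : ∀ u : A ⟶ H ⊗ (S ⊗ S), u = 0) :
    z ≫ H ◁ (Φ ≫ fl ((Nm W).map r ≫ nm)) =
      κ ≫ (nu S).hom ≫ (w ⊗ₘ w ⊗ₘ w) ≫ Step.mul3 (H ⊗ H) := by
  have k1 : ∀ e : H ⟶ H ⊗ H, (Nm W).map e ≫ nm₂ nm = nm ≫ (tv W).map e →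
      Φ ≫ fl ((Nm W).map (r ≫ e) ≫ nm₂ nm) = (Φ ≫ fl ((Nm W).map r ≫ nm)) ≫ e := fun e he => by
    rw [Category.assoc, fl_comp, Functor.map_comp, Category.assoc, Category.assoc, he]
  have k2 : Φ ≫ fl ((Nm W).map (t ≫ w) ≫ nm₂ nm) =
      t' ≫ κ ≫ (nu S).hom ≫ (w ⊗ₘ w ⊗ₘ w) ≫ Step.mul3 (H ⊗ H) := by
    rw [Functor.map_comp, Category.assoc, ← map_fl, reassoc_of% hΦ, pi_fl, Functor.map_comp,
      Category.assoc, U_nm₂ h1, nu_nat_assoc]
  have k3 : ∀ k : C ⊗ C ⊗ C ⟶ (H ⊗ H) ⊗ (H ⊗ H) ⊗ (H ⊗ H),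
      Φ ≫ fl (W.s₁.tr ((nu C).hom ≫ k ≫ (nu _).inv) ≫ nm₂ nm) =
        (Φ ≫ (orb W).map (W.s₁.un' _) ≫ fo _ ≫ (nu C).hom) ≫ k ≫ Step.mul3 (H ⊗ H) := fun k => by
    rw [← map_fl, W.s₁.tr_eq, Functor.map_comp]
    change Φ ≫ ((orb W).map _ ≫ (orb W).map (shp _)) ≫ _ = _
    rw [orb_shp]
    simp only [Category.assoc]
    rw [pi_fl, U_nm₂ h1, Iso.inv_hom_id_assoc]
  have k4 := k1 _ (eL_nm₂ h2)
  rw [hw, W.s₁.N_add, Preadditive.add_comp, Preadditive.add_comp, fl_add, fl_add,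
    Preadditive.comp_add, Preadditive.comp_add, k1 _ (eR_nm₂ h2), k2] at k4
  erw [k3] at k4
  generalize Φ ≫ fl ((Nm W).map r ≫ nm) = r' at k4 ⊢
  generalize Φ ≫ (orb W).map (W.s₁.un' _) ≫ fo _ ≫ (nu C).hom = l at k4
  generalize κ ≫ (nu S).hom ≫ (w ⊗ₘ w ⊗ₘ w) ≫ Step.mul3 (H ⊗ H) = y at k4 ⊢
  have k5 : ∀ {B : W.T₀.C} (x : B ⟶ H ⊗ H), ((r ≫ eR H) ⊗ₘ x) ≫ MonObj.mul (X := H ⊗ H) =
      (r ⊗ₘ x) ≫ actL H H := fun x => by
    rw [← eR_mul, ← tensorHom_id, tensorHom_comp_tensorHom_assoc, Category.comp_id]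
  have k6 : ∀ x : C ⊗ C ⟶ (H ⊗ H) ⊗ (H ⊗ H), ((r ≫ eR H) ⊗ₘ x) ≫ Step.mul3 (H ⊗ H) =
      (r ⊗ₘ (x ≫ MonObj.mul (X := H ⊗ H))) ≫ actL H H := fun x => by
    rw [← k5, Step.mul3, ← id_tensorHom, tensorHom_comp_tensorHom_assoc, Category.comp_id]
  have k7 := congrArg (fun u => z ≫ H ◁ u ≫ actL H H) k4
  simp only [MonoidalPreadditive.whiskerLeft_add, Preadditive.add_comp, Preadditive.comp_add,
    k6, k5] at k7
  simp only [MonoidalCategory.whiskerLeft_comp H l, MonoidalCategory.whiskerLeft_comp H r',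
    MonoidalCategory.whiskerLeft_comp H t', Category.assoc, eL_act, eR_act] at k7
  obtain ⟨z₁, e₁⟩ := exists_ev H (z ≫ H ◁ l) r ((r ⊗ₘ (t ≫ w)) ≫ actL H H)
  obtain ⟨z₂, e₂⟩ := exists_ev H z₁ r (t ≫ w)
  obtain ⟨z₃, e₃⟩ := exists_ev H (z ≫ H ◁ l) r (((t ≫ w) ⊗ₘ (t ≫ w)) ≫ MonObj.mul (X := H ⊗ H))
  have b₂ : z₂ ≫ H ◁ (t ≫ w) = 0 := by
    rw [MonoidalCategory.whiskerLeft_comp, ← Category.assoc, a1 (z₂ ≫ _), zero_comp]
  have b₃ : z₃ ≫ H ◁ (((t ≫ w) ⊗ₘ (t ≫ w)) ≫ MonObj.mul (X := H ⊗ H)) = 0 := by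
    rw [← tensorHom_comp_tensorHom, Category.assoc, MonoidalCategory.whiskerLeft_comp,
      ← Category.assoc, a2 (z₃ ≫ _), zero_comp]
  rw [e₂, reassoc_of% b₂, zero_comp, Category.assoc] at e₁
  rw [reassoc_of% b₃, zero_comp, Category.assoc] at e₃
  rw [e₁, e₃, ← Category.assoc z (H ◁ t'), hz, Tr.hur, hur_act, ← Category.assoc (H ◁ r'),
    ← Category.assoc z, a0 (z ≫ _), zero_comp, zero_add, add_zero, add_zero,
    Category.comp_id] at k7
  exact k7.symm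

end Vale.Agent.P236TD
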