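import Vale.Agent.P236TD.Phi2
import Vale.Agent.P236TD.Det

/-!
# P236, the Toda cell: the map on the extension of the bottom stage has filtration less than two
-/

open CategoryTheory MonoidalCategory Limits Pretriangulated
open Functor.LaxMonoidal Functor.OplaxMonoidal
open Vale.Agent.P251 Vale.Agent.P251.T Vale.Agent.P251.M Vale.Agent.P251.H Vale.Agent.P251.I
open Vale.Agent.P236Z Vale.Agent.P236Z.Cat Vale.Agent.P236Z.SS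

noncomputable section

namespace Vale.Agent.P236TD

variable {W : Tower}

theorem sph_cell {A : W.T₀.C} {k : ℤ} (h : Sph A k) {D : ℤ → Prop} (hk : D k) : Tr.Cell D A :=
  (Tr.Cell.sphere k hk).iso h.some.symm

theorem cone_cell {A B C : W.T₀.C} {f : A ⟶ B} {g : B ⟶ C} {h : C ⟶ A⟦(1 : ℤ)⟧} (E : Dist f g h)
    {k l : ℤ} (hA : Sph A k) (hB : Sph B l) {D : ℤ → Prop} (hk : D (k + 1)) (hl : D l) :
    Tr.Cell D C := Tr.Cell.ext E.rot (sph_cell hB hl) (sph_cell (hA.shift 1) hk)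

variable {H : W.T₀.C} {e : 𝟙_ W.T₀.C ⟶ H}

theorem hur_shift (Y : W.T₀.C) :
    Tr.hur e (Y⟦(1 : ℤ)⟧) ≫ (rS H Y).hom = (Tr.hur e Y)⟦(1 : ℤ)⟧' := by
  rw [Tr.hur, Tr.hur, Category.assoc, rS_nat_l, Functor.map_comp, ← Category.assoc, rS_hom,
    ← leftUnitor_inv_naturality_assoc]
  congr 1
  rw [Iso.inv_comp_eq, ← TensorTriangulated.e_naturality]
  simp

theorem three_hur (he : Tr.IsHF 3 e) (Y : W.T₀.C) : (3 : ℤ) • Tr.hur e Y = 0 := by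
  have h : (3 : ℤ) • e ▷ Y = ((3 : ℤ) • e) ▷ Y := ((tensorRight Y).map_zsmul).symm
  rw [Tr.hur, ← Preadditive.comp_zsmul, h, (he.ord 3).2 dvd_rfl,
    MonoidalPreadditive.zero_whiskerRight, comp_zero]

theorem toH_cell (he : Tr.IsHF 3 e) {A B : W.T₀.C} {n : ℤ} (hA : Sph A n) {D : ℤ → Prop}
    (hB : Tr.Cell D B) (hn : ¬ D n) (f : A ⟶ H ⊗ B) : f = 0 := by
  induction hB with
  | zero X h => exact ((tensorLeft H).map_isZero h).eq_of_tgt _ _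
  | sphere k hk =>
    rw [← cancel_epi hA.some.inv, ← cancel_mono (Tr.tenOf H (Iso.refl _)).hom, comp_zero, zero_comp]
    exact eq_zero_of_shift (n - k) k n (by ring) (he.conc _ fun h => hn (by
      rwa [show n = k by omega])) _
  | ext hd _ _ ih₁ ih₃ =>
    obtain ⟨g, rfl⟩ := (Ms.dist_r hd H).lift₂ f (ih₃ _)
    rw [ih₁ g, zero_comp]

theorem toH_sph (he : Tr.IsHF 3 e) {A B : W.T₀.C} {n m : ℤ} (hA : Sph A n) (hB : Sph B m)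
    (h : n ≠ m) (f : A ⟶ H ⊗ B) : f = 0 :=
  toH_cell he hA (sph_cell hB (D := (· = m)) rfl) h f

theorem null_orb {Y : W.T₁.C} (m : Y ⟶ 𝟙_ W.T₁.C) (h : m ≫ ε (tv W) ≫ (tv W).map e = 0) :
    Tr.Null e ((orb W).map m) := by
  refine orb_ext ?_
  have h1 : oun (𝟙_ W.T₁.C) ≫ (tv W).map (Tr.hur e _) = (ε (tv W) ≫ (tv W).map e) ≫ (ρ_ _).inv ≫
      _ ◁ oun (𝟙_ W.T₁.C) ≫ μ (tv W) _ _ := by
    rw [Tr.hur, Functor.map_comp, Functor.Monoidal.map_leftUnitor_inv, Category.assoc,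
      Category.assoc, ← μ_natural_left, leftUnitor_inv_naturality_assoc, ← comp_whiskerRight_assoc,
      whisker_exchange_assoc, rightUnitor_inv_naturality_assoc, unitors_inv_equal]
  rw [Functor.map_comp, oun_nat_assoc, h1, Category.assoc, reassoc_of% h, zero_comp,
    Functor.map_zero, comp_zero]

theorem exists_z (he : Tr.IsHF 3 e) {S X A K B C : W.T₀.C} {i : S ⟶ X} {δ : X ⟶ S⟦(1 : ℤ)⟧}
    (D : Dist ((3 : ℤ) • 𝟙 S) i δ) {iK : A ⟶ K} {pK : K ⟶ X} {ψ : X ⟶ A⟦(1 : ℤ)⟧}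
    (DK : Dist iK pK ψ) {g : K ⟶ B} {c : B ⟶ C} {q : C ⟶ K⟦(1 : ℤ)⟧} (E : Dist g c q)
    (hg : H ◁ g = 0) (hA : ∀ u : S⟦(1 : ℤ)⟧ ⟶ H ⊗ A⟦(1 : ℤ)⟧, u = 0) :
    ∃ z : (S⟦(1 : ℤ)⟧)⟦(1 : ℤ)⟧ ⟶ H ⊗ C, z ≫ H ◁ (q ≫ (pK ≫ δ)⟦(1 : ℤ)⟧') = Tr.hur e _ := by
  obtain ⟨z₁, h₁⟩ := (Ms.dist_r D.rot H).lift₃ (Tr.hur e _) (by
    rw [← Tr.hur_naturality_assoc, Functor.map_zsmul, Preadditive.neg_comp, Preadditive.zsmul_comp,
      ← Preadditive.comp_zsmul, ← Preadditive.zsmul_comp, three_hur he, zero_comp, comp_zero,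
      neg_zero])
  obtain ⟨z₂, rfl⟩ := (Ms.dist_r DK H).lift₃ z₁ (by rw [← Category.assoc, hA (_ ≫ _), zero_comp])
  obtain ⟨z₃, h₃⟩ := (Ms.dist_r E.rot H).lift₃ (z₂⟦(1 : ℤ)⟧' ≫ (rS _ _).inv) (by
    have h : H ◁ (-g⟦(1 : ℤ)⟧') = -(H ◁ g⟦(1 : ℤ)⟧') := (tensorLeft H).map_neg
    rw [h, whisk_shift hg, neg_zero, zero_comp, comp_zero])
  refine ⟨z₃, ?_⟩
  rw [MonoidalCategory.whiskerLeft_comp, reassoc_of% h₃, ← cancel_mono (rS _ _).hom,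
    Category.assoc, Category.assoc, rS_nat_r, Iso.inv_hom_id_assoc, ← Functor.map_comp,
    MonoidalCategory.whiskerLeft_comp, ← Category.assoc, h₁, hur_shift]

theorem U_ηN : (U W).map (η (Nm W)) ≫ (U W).map (ε (tv W)) ≫ (tU W _).hom =
    (nu _).hom ≫ (λ_ _).hom ≫ (λ_ _).hom := by
  rw [← cancel_epi ((U W).map (ε (Nm W))), ← cancel_epi (ε (U W)), nu_unit_assoc,
    ← Functor.map_comp_assoc, Functor.Monoidal.ε_η, CategoryTheory.Functor.map_id,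
    Category.id_comp, tU_unit]
  monoidal

theorem U_three (S : W.T₀.C) :
    (U W).map ((Nm W).map ((3 : ℤ) • 𝟙 S)) ≫ (nu S).hom = (nu S).hom ≫ ((27 : ℤ) • 𝟙 _) := by
  have h : ∀ (A B : W.T₀.C) (m n : ℤ), ((m • 𝟙 A) ⊗ₘ (n • 𝟙 B)) = (m * n) • 𝟙 _ :=
    fun A B m n => by
      have h1 : (m • 𝟙 A) ▷ B = m • 𝟙 _ :=
        ((tensorRight B).map_zsmul).trans (congrArg _ (id_whiskerRight _ _))
      have h2 : A ◁ (n • 𝟙 B) = n • 𝟙 _ :=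
        ((tensorLeft A).map_zsmul).trans (congrArg _ (MonoidalCategory.whiskerLeft_id _ _))
      rw [MonoidalCategory.tensorHom_def, h1, h2, Preadditive.zsmul_comp, Category.id_comp,
        smul_smul]
  rw [nu_nat, h, h]
  rfl

theorem exists_G (hg : W.Geo) [MonObj H] [IsCommMonObj H] (he : Tr.IsHF 3 (MonObj.one (X := H)))
    {S X C : W.T₀.C} {d : ℤ} (hd : 0 ≤ d) (hS : Sph S d) {j : S ⟶ X} {δ : X ⟶ S⟦(1 : ℤ)⟧}
    (D : Dist ((3 : ℤ) • 𝟙 S) j δ) {θ : X ⟶ 𝟙_ W.T₀.C} {c : 𝟙_ W.T₀.C ⟶ C}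
    {q : C ⟶ X⟦(1 : ℤ)⟧} (E : Dist θ c q) {r : C ⟶ H} (hr : c ≫ r = MonObj.one (X := H))
    {w : (S⟦(1 : ℤ)⟧)⟦(1 : ℤ)⟧ ⟶ H ⊗ H} (hw : r ≫ eL H = r ≫ eR H + (q ≫ δ⟦(1 : ℤ)⟧') ≫ w)
    (hw3 : (w ⊗ₘ w ⊗ₘ w) ≫ Step.mul3 (H ⊗ H) ≠ 0) {S' X' : W.T₀.C} (hS' : Sph S' (3 * d + 4))
    {j' : S' ⟶ X'} {δ' : X' ⟶ S'⟦(1 : ℤ)⟧} (D' : Dist ((3 : ℤ) • 𝟙 S') j' δ') :
    ∃ (A K : W.T₀.C) (iA : S ⊗ S ⊗ S ⟶ A) (jA : A ⟶ (S ⊗ S ⊗ S)⟦(1 : ℤ)⟧) (φ : A ⟶ X ⊗ X ⊗ X)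
      (iK : A ⟶ K) (pK : K ⟶ X') (ψ : X' ⟶ A⟦(1 : ℤ)⟧) (G : K ⟶ 𝟙_ W.T₀.C),
      Dist ((27 : ℤ) • 𝟙 _) iA jA ∧ iA ≫ φ = j ⊗ₘ j ⊗ₘ j ∧ Dist iK pK ψ ∧
      iK ≫ G = φ ≫ (θ ⊗ₘ θ ⊗ₘ θ) ≫ (λ_ _).hom ≫ (λ_ _).hom ∧
      ¬ Tr.AF (MonObj.one (X := H)) 2 G := by
  obtain ⟨σ⟩ := small W (ten W) hg
  obtain ⟨nm, n1, n2⟩ := exists_nm he.conc
  have fS : Fn S := sph_cell hS trivial
  have fX : Fn X := cone_cell D hS hS trivial trivial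
  have s3 : Sph (S ⊗ S ⊗ S) (3 * d) := (hS.tensor (hS.tensor hS)).cast (by ring)
  obtain ⟨Z₁, ι, q₁, E₁⟩ := exists_cone ((Nm W).map ((3 : ℤ) • 𝟙 S))
  obtain ⟨Z₂, c₂, q₂, E₂⟩ := exists_cone ((Nm W).map θ)
  obtain ⟨φ₁, ζ₀, _, a1, a2, a3, a4⟩ := phi hg fS fS fS _ (𝟙 S) _ _ _ D _ _ _ E₁
  obtain ⟨φ₂, ζ, ζ', b1, b2, b3, b4⟩ := phi hg fX (sph_cell sph_unit trivial)
    (sph_cell (hS.shift 1) trivial) θ δ _ _ _ E _ _ _ E₂
  simp only [CategoryTheory.Functor.map_id, Category.comp_id, Category.id_comp] at a3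
  subst a3
  obtain ⟨x, hx⟩ := (eu_std ((Nm W).obj (S⟦(1 : ℤ)⟧))).shift.iso b4
  obtain ⟨K, iK, pK, ψ, k, κ, DK, k1, k2⟩ := exists_K σ E₁ (trT_N S) a4 (eu_std _)
    (s3.of_iso (nu S)) hS' D'
  generalize (ρ_ ((Nm W).obj (S⟦(1 : ℤ)⟧))).inv ≫ _ ◁ W.s₁.ar = ζ₁ at hx k2
  have DA : Dist ((27 : ℤ) • 𝟙 _) ((nu S).inv ≫ (U W).map ι)
      (((U W).map q₁ ≫ (cs W _).hom) ≫ (nu S).hom⟦(1 : ℤ)⟧') := by
    simpa using Tr.dist_iso (dist_U E₁) (nu S).symm (nu S).symm (Iso.refl _)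
      (f' := (27 : ℤ) • 𝟙 _) (g' := (nu S).inv ≫ (U W).map ι) (by
        rw [Iso.symm_hom, Iso.eq_inv_comp, ← Category.assoc, ← U_three, Category.assoc,
          Iso.hom_inv_id, Category.comp_id]) (Category.comp_id _)
  refine ⟨_, K, _, _, (U W).map φ₁ ≫ (nu X).hom, iK, pK, ψ,
    (k ≫ (orb W).map (φ₁ ≫ (Nm W).map θ)) ≫ fl (η (Nm W) ≫ ε (tv W)), DA, ?_, DK, ?_, ?_⟩
  · rw [Category.assoc, ← Functor.map_comp_assoc, a1, nu_nat, Iso.inv_hom_id_assoc]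
  · rw [Category.assoc, reassoc_of% k1, map_fl, pi_fl, Category.assoc, Functor.map_comp,
      Functor.map_comp, Functor.map_comp, Category.assoc, Category.assoc, Category.assoc, U_ηN,
      nu_nat_assoc, Category.assoc]
  intro hG
  obtain ⟨C', c', q', E'⟩ := exists_cone (k ≫ (orb W).map (φ₁ ≫ (Nm W).map θ))
  obtain ⟨u, u1, u2⟩ := E'.map₃ (dist_orb E₂) (k ≫ (orb W).map φ₁) (𝟙 _) (by
    rw [Category.comp_id, Functor.map_comp, Category.assoc])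
  have cA : Tr.Cell (fun n => n = 3 * d ∨ n = 3 * d + 1) ((U W).obj Z₁) :=
    cone_cell DA s3 s3 (Or.inr rfl) (Or.inl rfl)
  have hθ : θ ≫ MonObj.one (X := H) = 0 := by rw [← hr, ← Category.assoc, E.zero₁₂, zero_comp]
  have n3 : η (Nm W) ≫ ε (tv W) ≫ (tv W).map (MonObj.one (X := H)) =
      (Nm W).map (MonObj.one (X := H)) ≫ nm := by rw [← n2, Functor.Monoidal.η_ε_assoc]
  have hn : Tr.Null (MonObj.one (X := H)) ((orb W).map ((Nm W).map θ)) := by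
    have h := (null_orb (e := MonObj.one (X := H)) ((Nm W).map θ ≫ η (Nm W)) (by
      rw [Category.assoc, n3, ← Functor.map_comp_assoc, hθ, W.s₁.N_zero, zero_comp])).post
      ((orb W).map (ε (Nm W)))
    rwa [← Functor.map_comp, Category.assoc, Functor.Monoidal.η_ε, Category.comp_id] at h
  obtain ⟨z, hz⟩ := exists_z he D' DK E' (whisk_of_null (by
    rw [Functor.map_comp]
    exact (hn.pre _).pre _)) (toH_cell he (hS'.shift 1)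
      (cA.shift (D' := fun n => n = 3 * d + 1 ∨ n = 3 * d + 2) 1 fun n h => by omega) (by omega))
  have s6 : Sph ((S'⟦(1 : ℤ)⟧)⟦(1 : ℤ)⟧) (3 * d + 4 + 1 + 1) := (hS'.shift 1).shift 1
  have s2 : Sph ((S⟦(1 : ℤ)⟧)⟦(1 : ℤ)⟧) (d + 1 + 1) := (hS.shift 1).shift 1
  have a0 : ∀ v : (S'⟦(1 : ℤ)⟧)⟦(1 : ℤ)⟧ ⟶ H, v = 0 :=
    (sph_cell s6 (D := fun n => n ≠ 0) (by omega)).hom_zero he.conc
  have h1 := det n2 n1 hw (Φ := u ≫ (orb W).map φ₂) (t' := q' ≫ (pK ≫ δ')⟦(1 : ℤ)⟧')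
    (κ := κ.hom⟦(1 : ℤ)⟧' ≫ (cs W _).inv ≫ (U W).map x.hom) (by
      have h2 : (os _).hom ≫ ((orb W).map ((Nm W).map δ ≫ ζ₁))⟦(1 : ℤ)⟧' ≫ (os _).inv =
          (orb W).map (((Nm W).map δ ≫ ζ₁)⟦(1 : ℤ)⟧') := by
        rw [← os_nat_assoc, Iso.hom_inv_id, Category.comp_id]
      have h3 : (pi _)⟦(1 : ℤ)⟧' ≫ (os _).inv ≫ (orb W).map x.hom =
          (cs W _).inv ≫ (U W).map x.hom ≫ pi _ := by
        rw [Iso.eq_inv_comp, ← pi_shift_assoc, Iso.hom_inv_id_assoc, pi_nat]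
      rw [Category.assoc, ← Functor.map_comp, Functor.map_comp (Nm W), reassoc_of% b2, b3, ← hx,
        ← Functor.map_comp_assoc (shiftFunctor _ _), Functor.map_comp (orb W),
        Functor.map_comp (orb W), ← h2]
      simp only [Category.assoc] at u2 ⊢
      rw [← reassoc_of% u2, ← Functor.map_comp_assoc (shiftFunctor _ _), Category.assoc,
        ← Functor.map_comp (orb W), reassoc_of% a2, k2, ← h3]
      simp only [Functor.map_comp, Category.assoc]) hz a0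
    (toH_sph he s6 s2 (by omega)) (toH_sph he s6 (s2.tensor s2) (by omega))
  have cK : Tr.Cell (fun n => 0 ≤ n) K := Tr.Cell.ext DK (cA.mono fun n h => by omega)
    (cone_cell D' hS' hS' (by omega) (by omega))
  rw [crit E' _ ((u ≫ (orb W).map φ₂) ≫ fl ((Nm W).map r ≫ nm)) (by
    rw [Category.assoc, reassoc_of% u1, map_fl, map_fl, reassoc_of% b1,
      ← Functor.map_comp_assoc, hr, fl_comp, Category.assoc, n3])
    ((cK.shift (D' := fun n => n ≠ 0) 1 fun n h => by omega).hom_zero he.conc) hG a0 z] at h1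
  refine hw3 ?_
  rw [← cancel_epi (nu _).hom, ← cancel_epi (κ.hom⟦(1 : ℤ)⟧' ≫ (cs W _).inv ≫ (U W).map x.hom),
    ← h1, comp_zero, comp_zero]

end Vale.Agent.P236TD
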