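import Vale.Agent.P236Z.SS.Ten
import Vale.Agent.P257.H709.LowPi
import Vale.Agent.P251.M.BGlueD
import Vale.Agent.P251.M.LineIso

/-!
# P236, the Toda cell: Moore spectra in low degrees
-/

open CategoryTheory MonoidalCategory Limits Pretriangulated
open Vale.Agent.P251 Vale.Agent.P251.T Vale.Agent.P251.M Vale.Agent.P251.H
open Vale.Agent.P236Z Vale.Agent.P236Z.Cat Vale.Agent.P236Z.SS

noncomputable section

namespace Vale.Agent.P236TD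

variable {W : Tower}

theorem pi_M {M : W.T₀.C} {i : 𝟙_ W.T₀.C ⟶ M} {δ : M ⟶ (𝟙_ W.T₀.C)⟦(1 : ℤ)⟧}
    (D : Dist ((3 : ℤ) • 𝟙 (𝟙_ W.T₀.C)) i δ) {j : ℤ} (h1 : 1 ≤ j) (h2 : j ≤ 2)
    (f : (𝟙_ W.T₀.C)⟦j⟧ ⟶ M) : f = 0 := by
  have := locallySmall_self.{0} W.T₀.C
  obtain ⟨R⟩ := nonempty_MUMon W.F (stdEven W.T₀.C) (lineIso W.F)
  obtain ⟨b⟩ := R.nonempty_muBasis
  obtain ⟨V⟩ := S.exists_unitCof (R.data b).R
  have : Fact (Nat.Prime 3) := ⟨Nat.prime_three⟩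
  exact P257.H709.pi_low (R.data b) V (p := 3) (by norm_num) D h1 (by omega) f

theorem hom_sph {A B : W.T₀.C} {d k : ℤ} (hA : Sph A (k + d)) (hB : Sph B d) :
    Nonempty ((A ⟶ B) ≃+ ((𝟙_ W.T₀.C)⟦k⟧ ⟶ 𝟙_ W.T₀.C)) := by
  obtain ⟨a⟩ := hA.iso (Sph.shift (W := W) (d := k) ⟨Iso.refl _⟩ d)
  obtain ⟨b⟩ := hB
  refine ⟨(AddEquiv.ofBijective (AddMonoidHom.mk' (fun f : (𝟙_ W.T₀.C)⟦k⟧ ⟶ 𝟙_ W.T₀.C =>
    a.hom ≫ f⟦d⟧' ≫ b.inv) fun f g => by simp) ⟨fun f g h => ?_, fun f => ?_⟩).symm⟩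
  · exact (shiftFunctor _ d).map_injective (by simpa using h)
  · obtain ⟨g, hg⟩ := (shiftFunctor _ d).map_surjective (a.inv ≫ f ≫ b.hom)
    exact ⟨g, by simp [hg]⟩

theorem div₀ {k : ℤ} (h1 : 1 ≤ k) (h2 : k ≤ 2) (f : (𝟙_ W.T₀.C)⟦k⟧ ⟶ 𝟙_ W.T₀.C) :
    ∃ g, f = (3 : ℤ) • g := by
  obtain ⟨M, i, δ, D⟩ := exists_cone ((3 : ℤ) • 𝟙 (𝟙_ W.T₀.C))
  obtain ⟨g, hg⟩ := D.lift₂ f (pi_M D h1 h2 _)
  exact ⟨g, by rw [← hg, Preadditive.comp_zsmul, Category.comp_id]⟩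

theorem inj₀ (f : (𝟙_ W.T₀.C)⟦(1 : ℤ)⟧ ⟶ 𝟙_ W.T₀.C) (h : (3 : ℤ) • f = 0) : f = 0 := by
  obtain ⟨M, i, δ, D⟩ := exists_cone ((3 : ℤ) • 𝟙 (𝟙_ W.T₀.C))
  obtain ⟨g, hg⟩ := D.lift₁ (f⟦(1 : ℤ)⟧') (by
    rw [← Functor.map_comp, Preadditive.comp_zsmul, Category.comp_id, h, Functor.map_zero])
  obtain ⟨e⟩ := (Sph.shift (W := W) (d := 1) ⟨Iso.refl _⟩ 1).iso (d := 2) ⟨Iso.refl _⟩
  have h1 : g = 0 := by rw [← cancel_epi e.inv, pi_M D (by norm_num) le_rfl (e.inv ≫ g), comp_zero]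
  apply (shiftFunctor _ (1 : ℤ)).map_injective
  rw [← hg, h1, zero_comp, Functor.map_zero]

theorem div3 {A B : W.T₀.C} {d k : ℤ} (hA : Sph A (k + d)) (hB : Sph B d) (h1 : 1 ≤ k)
    (h2 : k ≤ 2) (f : A ⟶ B) : ∃ g, f = (3 : ℤ) • g := by
  obtain ⟨e⟩ := hom_sph hA hB
  obtain ⟨g, hg⟩ := div₀ h1 h2 (e f)
  exact ⟨e.symm g, by rw [← map_zsmul, ← hg, e.symm_apply_apply]⟩

theorem inj3 {A B : W.T₀.C} {d k : ℤ} (hA : Sph A (k + d)) (hB : Sph B d) (h1 : k ≤ 1)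
    (f : A ⟶ B) (h : (3 : ℤ) • f = 0) : f = 0 := by
  rcases lt_trichotomy k 0 with h2 | rfl | h2
  · exact hA.eq_zero (cell_conn hB.cell) (by omega) f
  · obtain ⟨e⟩ := hB.iso (hA.cast (zero_add d))
    obtain ⟨m, hm⟩ := hA.end_int (f ≫ e.hom)
    have h3 : 3 * m = 0 := hA.zsmul_inj _ (by
      rw [mul_smul, ← hm, ← Preadditive.zsmul_comp, h, zero_comp])
    rw [← cancel_mono e.hom, hm, show m = 0 by omega, zero_smul, zero_comp]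
  · obtain rfl : k = 1 := by omega
    obtain ⟨e⟩ := hom_sph hA hB
    exact e.injective (by rw [inj₀ (e f) (by rw [← map_zsmul, h, map_zero]), map_zero])

variable {S X : W.T₀.C} {i : S ⟶ X} {δ : X ⟶ S⟦(1 : ℤ)⟧} {n : ℤ} (D : Dist (n • 𝟙 S) i δ)

include D

theorem smul_i : n • i = 0 := by
  rw [← D.zero₁₂, Preadditive.zsmul_comp, Category.id_comp]

theorem smul_δ : n • δ = 0 := by
  rw [← D.zero₃₁, Functor.map_zsmul, CategoryTheory.Functor.map_id, Preadditive.comp_zsmul,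
    Category.comp_id]

theorem ext_of {Y : W.T₀.C} (x : S ⟶ Y) (h : n • x = 0) : ∃ y : X ⟶ Y, i ≫ y = x :=
  D.desc₂ x (by rw [Preadditive.zsmul_comp, Category.id_comp, h])

theorem div_of {Y : W.T₀.C} (x : S⟦(1 : ℤ)⟧ ⟶ Y) (h : δ ≫ x = 0) : ∃ y, x = n • y := by
  obtain ⟨y, hy⟩ := D.desc₁ x h
  exact ⟨y, by rw [← hy, Functor.map_zsmul, CategoryTheory.Functor.map_id, Preadditive.zsmul_comp,
    Category.id_comp]⟩

omit D

variable {d : ℤ} (hS : Sph S d) (D₃ : Dist ((3 : ℤ) • 𝟙 S) i δ)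

include hS D₃

/-- maps from a Moore spectrum to spheres -/
theorem to_sph {B : W.T₀.C} {e : ℤ} (hB : Sph B e) (h1 : d ≤ e + 1) (h2 : e ≠ d + 1)
    (f : X ⟶ B) : f = 0 := by
  obtain ⟨v, rfl⟩ := D₃.desc₃ f (inj3 (k := d - e) (hS.cast (by ring)) hB (by omega) _ (by
    rw [← Preadditive.zsmul_comp, smul_i D₃, zero_comp]))
  rcases lt_or_gt_of_ne h2 with h | h
  · obtain ⟨g, rfl⟩ := div3 (k := d + 1 - e) ((hS.shift 1).cast (by ring)) hB (by omega)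
      (by omega) v
    rw [Preadditive.comp_zsmul, ← Preadditive.zsmul_comp, smul_δ D₃, zero_comp]
  · rw [(hS.shift 1).eq_zero (cell_conn hB.cell) h v, comp_zero]

/-- maps from spheres to a Moore spectrum -/
theorem of_sph {A : W.T₀.C} {e : ℤ} (hA : Sph A e) (h1 : e ≤ d + 2) (h2 : e ≠ d)
    (f : A ⟶ X) : f = 0 := by
  obtain ⟨v, rfl⟩ := D₃.lift₃ f (inj3 (k := e - (d + 1)) (hA.cast (by ring)) (hS.shift 1)
    (by omega) _ (by rw [← Preadditive.comp_zsmul, smul_δ D₃, comp_zero]))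
  rcases lt_or_gt_of_ne h2 with h | h
  · rw [hA.eq_zero (cell_conn hS.cell) h v, zero_comp]
  · obtain ⟨g, rfl⟩ := div3 (k := e - d) (hA.cast (by ring)) hS (by omega) (by omega) v
    rw [Preadditive.zsmul_comp, ← Preadditive.comp_zsmul, smul_i D₃, comp_zero]

theorem three_id : (3 : ℤ) • 𝟙 X = 0 := by
  obtain ⟨v, hv⟩ := D₃.desc₃ ((3 : ℤ) • 𝟙 X) (by
    rw [Preadditive.comp_zsmul, Category.comp_id, smul_i D₃])
  rw [← hv, of_sph hS D₃ (hS.shift 1) (by omega) (by omega) v, comp_zero]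

theorem three_src {Y : W.T₀.C} (f : X ⟶ Y) : (3 : ℤ) • f = 0 := by
  rw [← Category.id_comp f, ← Preadditive.zsmul_comp, three_id hS D₃, zero_comp]

theorem three_tgt {Y : W.T₀.C} (f : Y ⟶ X) : (3 : ℤ) • f = 0 := by
  rw [← Category.comp_id f, ← Preadditive.comp_zsmul, three_id hS D₃, comp_zero]

end Vale.Agent.P236TD
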