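import Vale.Agent.P236TD.Van
import Vale.Agent.P236TD.Moo
import Vale.Agent.P236Z.SS.Small

/-!
# P236, the Toda cell: a Moore spectrum in the orbits
-/

open CategoryTheory MonoidalCategory Limits Pretriangulated
open Functor.LaxMonoidal Functor.OplaxMonoidal
open Vale.Agent.P251 Vale.Agent.P251.T Vale.Agent.P251.M Vale.Agent.P251.H
open Vale.Agent.P236Z Vale.Agent.P236Z.Cat Vale.Agent.P236Z.SS Vale.Agent.P236Z.SS.Sml

noncomputable section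

namespace Vale.Agent.P236TD

variable {W : Tower}

/-- `ζ` is the multiplication by the Euler class -/
def Eu {V V' : W.T₁.C} (ζ : V ⟶ V') : Prop :=
  ∃ e : V' ≅ V ⊗ W.s₁.Lr, ζ ≫ e.hom = (ρ_ V).inv ≫ V ◁ W.s₁.ar

/-- `f` is three plus a multiple of the transfer -/
def TrT {Y : W.T₁.C} (f : Y ⟶ Y) : Prop := ∃ m : ℤ, f = (3 : ℤ) • 𝟙 Y + m • W.s₁.tr (𝟙 _)

theorem γ_sph {V : W.T₁.C} {n : ℤ} (h : Sph ((U W).obj V) n) : W.s₁.γ V = 𝟙 _ := by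
  obtain ⟨m, hm⟩ := h.end_int (W.s₁.γ V)
  have h1 := γ3 V
  rw [hm, Preadditive.zsmul_comp, Preadditive.zsmul_comp, Category.id_comp, Category.id_comp,
    smul_smul, smul_smul, ← sub_eq_zero] at h1
  have h2 : m * m * m - 1 = 0 := h.zsmul_inj _ (by rw [sub_smul, one_smul, h1])
  have h3 : m = 1 := by
    rcases Int.eq_one_or_neg_one_of_mul_eq_one (u := m) (v := m * m) (by linarith) with h | h
    · exact h
    · rw [h] at h2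
      norm_num at h2
  rw [hm, h3, one_smul]

theorem tr_nat {Y Y' : W.T₁.C} (f : Y ⟶ Y') : f ≫ W.s₁.tr (𝟙 _) = W.s₁.tr (𝟙 _) ≫ f := by
  have h1 := W.s₁.tr_comp f (𝟙 _) (𝟙 Y')
  have h2 := W.s₁.tr_comp (𝟙 Y) (𝟙 _) f
  simp only [CategoryTheory.Functor.map_id, Category.comp_id, Category.id_comp] at h1 h2
  rw [← h1, h2]

theorem tr_ten (Y Z : W.T₁.C) : W.s₁.tr (𝟙 ((U W).obj Y)) ▷ Z = W.s₁.tr (𝟙 _) := by
  rw [W.s₁.tr_whiskerRight, id_whiskerRight, Category.id_comp, Functor.Monoidal.δ_μ]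

theorem TrT.ten {Y : W.T₁.C} {f : Y ⟶ Y} (h : TrT f) (Z : W.T₁.C) : TrT (f ▷ Z) := by
  obtain ⟨m, rfl⟩ := h
  refine ⟨m, ?_⟩
  change (tensorRight Z).map _ = _
  rw [Functor.map_add, Functor.map_zsmul, Functor.map_zsmul, CategoryTheory.Functor.map_id]
  exact congrArg (fun x => _ + m • x) (tr_ten Y Z)

theorem TrT.shift {Y : W.T₁.C} {f : Y ⟶ Y} (h : TrT f) : TrT (f⟦(1 : ℤ)⟧') := by
  obtain ⟨m, hm⟩ := h.ten ((𝟙_ W.T₁.C)⟦(1 : ℤ)⟧)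
  refine ⟨m, ?_⟩
  rw [← cancel_epi (TensorTriangulated.e Y).hom, ← TensorTriangulated.e_naturality, hm,
    Preadditive.add_comp, Preadditive.comp_add, Preadditive.zsmul_comp, Preadditive.zsmul_comp,
    Preadditive.comp_zsmul, Preadditive.comp_zsmul, tr_nat, Category.id_comp, Category.comp_id]

theorem tr_zsmul {Y Y' : W.T₁.C} (m : ℤ) (k : (U W).obj Y ⟶ (U W).obj Y') :
    W.s₁.tr (m • k) = m • W.s₁.tr k := by
  rw [W.s₁.tr_eq, W.s₁.tr_eq, Functor.map_zsmul, Preadditive.zsmul_comp, Preadditive.comp_zsmul]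

theorem trT_N (S : W.T₀.C) : TrT ((Nm W).map ((3 : ℤ) • 𝟙 S)) := by
  have h : ∀ m : ℤ, (Nm W).map ((m + 1) • 𝟙 S) =
      𝟙 _ + (Nm W).map (m • 𝟙 S) + (m + m * m) • W.s₁.tr (𝟙 _) := fun m => by
    rw [add_smul, one_smul, add_comm (m • 𝟙 S), W.s₁.N_add, CategoryTheory.Functor.map_id,
      ← tr_zsmul]
    refine congrArg (fun x => _ + W.s₁.tr x) ?_
    have h1 : ∀ {A B : W.T₀.C}, (𝟙 A ⊗ₘ (m • 𝟙 B)) = m • 𝟙 _ := fun {A B} => by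
      rw [id_tensorHom]
      exact ((tensorLeft A).map_zsmul).trans (congrArg _ (MonoidalCategory.whiskerLeft_id _ _))
    have h2 : ((m • 𝟙 S) ⊗ₘ (m • 𝟙 S)) = (m * m) • 𝟙 _ := by
      rw [MonoidalCategory.tensorHom_def, ← id_tensorHom, h1, mul_smul, Preadditive.comp_zsmul,
        Category.comp_id, smul_comm]
      exact congrArg _
        (((tensorRight S).map_zsmul).trans (congrArg _ (id_whiskerRight _ _)))
    rw [h1, h1, h2]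
    have h3 : (𝟙 S ⊗ₘ ((m * m) • 𝟙 (S ⊗ S))) = (m * m) • 𝟙 _ := by
      rw [id_tensorHom]
      exact ((tensorLeft S).map_zsmul).trans (congrArg _ (MonoidalCategory.whiskerLeft_id _ _))
    rw [h3, ← add_smul]
    change (nu S).hom ≫ ((m + m * m) • 𝟙 _) ≫ (nu S).inv = _
    rw [Preadditive.zsmul_comp, Preadditive.comp_zsmul, Category.id_comp, Iso.hom_inv_id]
  refine ⟨8, ?_⟩
  have h3 := h 2
  have h2 := h 1
  rw [one_smul, CategoryTheory.Functor.map_id] at h2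
  rw [show (3 : ℤ) = 2 + 1 from rfl, h3, show (2 : ℤ) = 1 + 1 from rfl, h2]
  abel

variable (σ : Sm W)

/-- the first step -/
def a0 (V : W.T₁.C) : V ⟶ V ⊗ σ.P := (ρ_ V).inv ≫ V ◁ σ.a₀

/-- the first boundary -/
def b0 (V : W.T₁.C) : V ⊗ σ.P ⟶ (W.s₁.ind.obj ((U W).obj V))⟦(1 : ℤ)⟧ :=
  tb V σ.b₀ ≫ (W.s₁.ind.map (ρ_ _).hom)⟦(1 : ℤ)⟧'

@[reassoc] theorem a0_nat {V V' : W.T₁.C} (f : V ⟶ V') : f ≫ a0 σ V' = a0 σ V ≫ f ▷ σ.P := by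
  rw [a0, a0, rightUnitor_inv_naturality_assoc, Category.assoc, whisker_exchange]

theorem dist_a0 (V : W.T₁.C) : Dist (shp (𝟙 _)) (a0 σ V) (b0 σ V) := by
  have h := Tr.dist_iso ((ten W).dist V σ.dist₀) (W.s₁.ind.mapIso (ρ_ _).symm) (ρ_ V).symm
    (Iso.refl _) (f' := shp (𝟙 _)) (g' := a0 σ V) (by
      rw [shp_comp, Functor.mapIso_hom, comp_shp, tg, Category.id_comp, Iso.symm_hom, Iso.symm_hom,
        Functor.LaxMonoidal.right_unitality_inv]) (Category.comp_id _)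
  simpa [b0] using h

theorem U_a0 (V : W.T₁.C) : (U W).map (a0 σ V) = 0 := by
  rw [a0, Functor.map_comp, Functor.Monoidal.map_whiskerLeft, σ.U_a₀,
    MonoidalPreadditive.whiskerLeft_zero, zero_comp, comp_zero, comp_zero]

theorem g_b0 {V : W.T₁.C} (hV : W.s₁.γ V = 𝟙 _) :
    tg V σ.g ≫ (U W).map (b0 σ V) ≫ (cs W _).hom =
      ((rS _ _).hom ≫ (ρ_ _).hom⟦(1 : ℤ)⟧') ≫ (W.s₁.un _ ≫ dd 0 _)⟦(1 : ℤ)⟧' := by
  have h := (ten W).gen_b V (κ := 𝟙 _) hV (σ.g_b₀.trans (Category.id_comp _).symm)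
  rw [b0, Functor.map_comp, Category.assoc, cs_nat, reassoc_of% h,
    MonoidalCategory.whiskerLeft_id, Category.id_comp, ← Functor.map_comp, Category.assoc,
    dd_nat, W.s₁.un_nat_assoc, Functor.map_comp, Category.assoc]

theorem dist_pi (V : W.T₁.C) : Dist (pi V) ((orb W).map (a0 σ V)) (bd (b0 σ V)) := by
  simpa only [Category.id_comp] using dist_cell (dist_a0 σ V)

theorem inv_eq {X S : W.T₀.C} (hX : (3 : ℤ) • 𝟙 X = 0) (y : X ⟶ (U W).obj (W.s₁.ind.obj S))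
    (h : y ≫ W.s₁.γ _ = y) : y = (y ≫ W.s₁.pr S) ≫ W.s₁.un S ≫ dd 0 _ ≫ dd 0 _ := by
  have h3 : y ≫ W.s₁.γ' _ = y := by
    rw [← cancel_mono (W.s₁.γ _), Category.assoc, W.s₁.γ'_γ, Category.comp_id, h]
  have h4 := W.s₁.eq_sum y
  simp only [Fin.sum_univ_three, Step.pw0, Step.pw1, Step.pw2, Category.id_comp, Category.comp_id,
    reassoc_of% h3, Category.assoc (W.s₁.γ' _)] at h4
  generalize y ≫ W.s₁.pr S = a at h4
  have h5 : (3 : ℤ) • (a ≫ W.s₁.un S ≫ W.s₁.γ _) = 0 := by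
    rw [← Category.id_comp a, Category.assoc, ← Preadditive.zsmul_comp, hX, zero_comp]
  rw [h4, dd0, ← sub_eq_zero, ← h5]
  simp only [Preadditive.sub_comp, Preadditive.comp_sub, Category.id_comp, Category.comp_id]
  abel

/-- The transfer vanishes on classes of order three. -/
theorem tr_zero {V : W.T₁.C} (hV : W.s₁.γ V = 𝟙 _) {X : W.T₀.C} (hX : (3 : ℤ) • 𝟙 X = 0)
    (s : X ⟶ (orb W).obj (V ⊗ σ.P)) : s ≫ (orb W).map (W.s₁.tr (𝟙 _)) = 0 := by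
  have e : (orb W).map (W.s₁.tr (𝟙 _)) =
      (orb W).map (W.s₁.un' (V ⊗ σ.P)) ≫ fo _ ≫ pi (V ⊗ σ.P) := by
    rw [W.s₁.tr_eq, Functor.map_comp]
    exact congrArg (_ ≫ ·) ((orb_shp _).trans (congrArg (_ ≫ ·) (Category.id_comp _)))
  have h1 : (s ≫ (orb W).map (W.s₁.un' (V ⊗ σ.P)) ≫ fo _) ≫ W.s₁.γ _ =
      s ≫ (orb W).map (W.s₁.un' (V ⊗ σ.P)) ≫ fo _ := by
    rw [Category.assoc, Category.assoc, ← fo_nat, ← Functor.map_comp_assoc, W.s₁.un'_nat,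
      Functor.map_comp, orb_h, Category.id_comp]
  rw [e, ← Category.assoc (_ : (orb W).obj _ ⟶ _), ← Category.assoc]
  generalize s ≫ (orb W).map (W.s₁.un' (V ⊗ σ.P)) ≫ fo _ = x at h1 ⊢
  let b := b0 σ V ≫ (ci _).inv
  let κ := rS _ _ ≪≫ (shiftFunctor _ (1 : ℤ)).mapIso (ρ_ ((U W).obj V))
  have h2 : tg V σ.g ≫ (U W).map b = κ.hom ≫ W.s₁.un _ ≫ dd 0 _ := by
    rw [← cancel_mono ((U W).map (ci _).hom ≫ (cs W _).hom), Category.assoc,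
      ← Functor.map_comp_assoc, Category.assoc, Iso.inv_hom_id, Category.comp_id, g_b0 σ hV,
      Category.assoc κ.hom, Category.assoc (W.s₁.un _), dd_nat_assoc, dd0, dd0,
      Preadditive.sub_comp, γ_cs, Category.id_comp, Functor.map_comp, Functor.map_sub,
      CategoryTheory.Functor.map_id, ← un_ci]
    simp only [κ, Iso.trans_hom, Functor.mapIso_hom, Preadditive.comp_sub, Category.assoc,
      Category.comp_id]
  have h4 := inv_eq hX (x ≫ (U W).map b) (by rw [Category.assoc, W.s₁.γ_nat, reassoc_of% h1])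
  generalize (x ≫ (U W).map b) ≫ W.s₁.pr _ = a at h4
  have h5 : x = a ≫ κ.inv ≫ tg V σ.g ≫ dd 0 _ := by
    refine mono₃ (dist_U (dist_a0 σ V)) (U_a0 σ V) ?_
    have h6 : b0 σ V = b ≫ (ci _).hom := by simp [b]
    rw [h6, Functor.map_comp, Category.assoc, reassoc_of% h4]
    simp only [Category.assoc]
    rw [dd_nat_assoc 0 b, reassoc_of% h2, Iso.inv_hom_id_assoc]
  rw [h5, Category.assoc, Category.assoc, Category.assoc, dd_pi, if_pos Even.zero, zero_smul,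
    comp_zero, comp_zero, comp_zero]

theorem TrT.zero {V : W.T₁.C} (hV : W.s₁.γ V = 𝟙 _) {X : W.T₀.C} (hX : (3 : ℤ) • 𝟙 X = 0)
    (s : X ⟶ (orb W).obj (V ⊗ σ.P)) {f : V ⊗ σ.P ⟶ V ⊗ σ.P} (h : TrT f) :
    s ≫ (orb W).map f = 0 := by
  obtain ⟨m, rfl⟩ := h
  rw [Functor.map_add, Functor.map_zsmul, Functor.map_zsmul, Preadditive.comp_add,
    Preadditive.comp_zsmul, Preadditive.comp_zsmul, tr_zero σ hV hX, smul_zero, add_zero,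
    ← Preadditive.zsmul_comp, ← Category.id_comp s, ← Preadditive.zsmul_comp, hX, zero_comp,
    zero_comp]

/-- The second cell. -/
theorem Eu.cell {V V' : W.T₁.C} {ζ : V ⟶ V'} (h : Eu ζ) (hV : W.s₁.γ V = 𝟙 _) :
    ∃ (j : V ⊗ σ.P ⟶ V') (b : V' ⟶ _) (κ : (U W).obj V' ≅ _), Dist (shp (tg V σ.g)) j b ∧
      a0 σ V ≫ j = ζ ∧ pi V' ≫ bd b = (3 : ℤ) • κ.hom := by
  obtain ⟨e, he⟩ := h
  obtain ⟨κ, hκ⟩ := σ.g_b₁
  have h1 := (ten W).gen_b V (g' := 𝟙 _) hV ((Category.id_comp _).trans hκ)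
  refine ⟨V ◁ σ.a₁ ≫ e.inv, e.hom ≫ tb V σ.b₁, (U W).mapIso e ≪≫
    (Functor.Monoidal.μIso (U W) _ _).symm ≪≫ whiskerLeftIso _ κ ≪≫ rS _ _,
    ((ten W).dist V σ.dist₁).of_iso₃ e.hom (by simp) rfl, ?_, ?_⟩
  · rw [a0, Category.assoc, ← MonoidalCategory.whiskerLeft_comp_assoc, σ.a_a, ← reassoc_of% he,
      Iso.hom_inv_id, Category.comp_id]
  · rw [← Category.id_comp (pi V')]
    refine (pi_bd (m := 1) ?_).trans (by rw [if_neg Int.not_even_one])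
    rw [tg, MonoidalCategory.whiskerLeft_id, Category.id_comp] at h1
    simp only [Iso.trans_hom, Functor.mapIso_hom, Iso.symm_hom, whiskerLeftIso_hom,
      Functor.Monoidal.μIso_inv, Category.assoc, Category.id_comp, Functor.map_comp] at h1 ⊢
    rw [← h1, Functor.Monoidal.δ_μ_assoc]

theorem sph_tg {V : W.T₁.C} {n : ℤ} (h : Sph ((U W).obj V) n) :
    Sph ((U W).obj V ⊗ (𝟙_ W.T₀.C)⟦(1 : ℤ)⟧) (n + 1) := h.tensor ⟨Iso.refl _⟩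

/-- The Moore spectrum in the orbits. -/
theorem exists_s {V₀ V₁ V₂ : W.T₁.C} {ζ₀ : V₀ ⟶ V₁} {ζ₁ : V₁ ⟶ V₂} (h₀ : Eu ζ₀) (h₁ : Eu ζ₁)
    {n : ℤ} (hV : Sph ((U W).obj V₀) n) {S X : W.T₀.C} {i : S ⟶ X} {δ : X ⟶ S⟦(1 : ℤ)⟧}
    (hS : Sph S (n + 3)) (D : Dist ((3 : ℤ) • 𝟙 S) i δ) :
    ∃ (s : X ⟶ (orb W).obj (V₀ ⊗ σ.P)) (j : V₀ ⊗ σ.P ⟶ V₂) (κ : S⟦(1 : ℤ)⟧ ≅ (U W).obj V₂),
      a0 σ V₀ ≫ j = ζ₀ ≫ ζ₁ ∧ s ≫ (orb W).map j = δ ≫ κ.hom ≫ pi V₂ := by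
  obtain ⟨j₀, b₀, κ₀, D₀, e₀, -⟩ := h₀.cell σ (γ_sph hV)
  have hV₁ : Sph ((U W).obj V₁) (n + 1 + 1) := ((sph_tg hV).shift 1).of_iso κ₀
  obtain ⟨j₁, b₁, κ₁, D₁, e₁, k₁⟩ := h₁.cell σ (γ_sph hV₁)
  obtain ⟨a⟩ := hS.iso ((sph_tg hV₁).cast (by ring))
  obtain ⟨s₁, -, hs₁⟩ := D.rot.map₂ (dist_cell D₁) a.hom
    (-(a.hom⟦(1 : ℤ)⟧' ≫ κ₁.inv ≫ pi V₂)) (by
      rw [Preadditive.neg_comp, Preadditive.neg_comp, Category.assoc, Category.assoc, k₁,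
        Preadditive.comp_zsmul, Iso.inv_hom_id, Functor.map_zsmul, CategoryTheory.Functor.map_id,
        Preadditive.comp_zsmul, Preadditive.zsmul_comp, Category.id_comp, Category.comp_id])
  obtain ⟨s₂, rfl⟩ := (dist_pi σ V₁).lift₃ s₁ (to_sph hS D (hV₁.shift 1) (by omega) (by omega) _)
  obtain ⟨s₃, rfl⟩ := (dist_cell D₀).lift₃ s₂
    (to_sph hS D ((sph_tg hV).shift 1) (by omega) (by omega) _)
  refine ⟨-s₃, j₀ ≫ ζ₁, (shiftFunctor _ (1 : ℤ)).mapIso a ≪≫ κ₁.symm, by rw [reassoc_of% e₀], ?_⟩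
  rw [Preadditive.comp_neg, neg_eq_iff_eq_neg, Category.assoc, Category.assoc, ← Functor.map_comp,
    e₁, ← Functor.map_comp] at hs₁
  rw [Preadditive.neg_comp, ← hs₁, Iso.trans_hom, Category.assoc]
  rfl

include σ in
/-- The extension of the bottom stage of the orbits by a Moore spectrum. -/
theorem exists_K {V C V₁ V₂ : W.T₁.C} {ν : V ⟶ V} {ι : V ⟶ C} {q : C ⟶ V⟦(1 : ℤ)⟧}
    (E : Dist ν ι q) (hν : TrT ν) {ζ₀ : V⟦(1 : ℤ)⟧ ⟶ V₁} {ζ₁ : V₁ ⟶ V₂} (h₀ : Eu ζ₀) (h₁ : Eu ζ₁)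
    {n : ℤ} (hV : Sph ((U W).obj V) n) {S X : W.T₀.C} {i : S ⟶ X} {δ : X ⟶ S⟦(1 : ℤ)⟧}
    (hS : Sph S (n + 4)) (D : Dist ((3 : ℤ) • 𝟙 S) i δ) :
    ∃ (K : W.T₀.C) (iK : (U W).obj C ⟶ K) (pK : K ⟶ X) (ψ : X ⟶ ((U W).obj C)⟦(1 : ℤ)⟧)
      (k : K ⟶ (orb W).obj C) (κ : S⟦(1 : ℤ)⟧ ≅ (U W).obj V₂), Dist iK pK ψ ∧ iK ≫ k = pi C ∧
      k ≫ (orb W).map (q ≫ ζ₀ ≫ ζ₁) = pK ≫ δ ≫ κ.hom ≫ pi V₂ := by
  have hV₀ : Sph ((U W).obj (V⟦(1 : ℤ)⟧)) (n + 1) := (hV.shift 1).of_iso (cs W V)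
  obtain ⟨s, j, κ, hj, hs⟩ := exists_s σ h₀ h₁ hV₀ (hS.cast (by ring)) D
  obtain ⟨t, ht⟩ := (dist_orb (Ms.dist_l E.rot σ.P)).lift₃ s (by
    have h : (-ν⟦(1 : ℤ)⟧') ▷ σ.P = -(ν⟦(1 : ℤ)⟧' ▷ σ.P) := (tensorRight σ.P).map_neg
    rw [h, Functor.map_comp, Functor.map_neg, Category.assoc, Preadditive.neg_comp,
      Preadditive.comp_neg, ← Category.assoc,
      (hν.shift.ten σ.P).zero σ (γ_sph hV₀) (three_id hS D), zero_comp, neg_zero])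
  obtain ⟨K, iK, pK, DK⟩ := exists_mid (t ≫ bd (b0 σ C))
  obtain ⟨k, h1, h2⟩ := DK.map₂ (dist_pi σ C) (𝟙 _) t (by simp)
  refine ⟨K, iK, pK, _, k, κ, DK, h1.trans (Category.id_comp _), ?_⟩
  rw [← hj, a0_nat_assoc, Functor.map_comp, ← reassoc_of% h2, Functor.map_comp, reassoc_of% ht, hs]

end Vale.Agent.P236TD
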