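import Vale.Agent.P236TD.Moo

/-!
# P236, the Toda cell: the third power of a map out of a Moore spectrum, in the degree next to the
bottom cell
-/

open CategoryTheory MonoidalCategory Limits Pretriangulated
open Vale.Agent.P251 Vale.Agent.P251.T Vale.Agent.P251.M Vale.Agent.P251.H
open Vale.Agent.P236Z Vale.Agent.P236Z.Cat Vale.Agent.P236Z.SS

noncomputable section

namespace Vale.Agent.P236TD

variable {W : Tower}

/-- all the composites with `m` are divisible by three -/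
def T3 (A : W.T₀.C) {Y Z : W.T₀.C} (m : Y ⟶ Z) : Prop :=
  ∀ u : A ⟶ Y, ∃ w, u ≫ m = (3 : ℤ) • w

/-- all maps are multiples of `b` -/
def Gen {A Y : W.T₀.C} (b : A ⟶ Y) : Prop := ∀ u : A ⟶ Y, ∃ n : ℤ, u = n • b

/-- `h` is divisible by three -/
def D3 {A Y : W.T₀.C} (h : A ⟶ Y) : Prop := ∃ k, h = (3 : ℤ) • k

theorem T3.of_iso {A A' Y Z : W.T₀.C} {m : Y ⟶ Z} (h : T3 A m) (e : A' ≅ A) : T3 A' m := fun u => by
  obtain ⟨w, hw⟩ := h (e.inv ≫ u)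
  exact ⟨e.hom ≫ w, by rw [← Preadditive.comp_zsmul, ← hw]; simp⟩

theorem T3.step {A Y₁ Y₂ Y₃ Z : W.T₀.C} {f : Y₁ ⟶ Y₂} {g : Y₂ ⟶ Y₃} {h : Y₃ ⟶ Y₁⟦(1 : ℤ)⟧}
    (D : Dist f g h) {m : Y₂ ⟶ Z} {u₀ : A ⟶ Y₂} (hb : Gen (u₀ ≫ g)) (h0 : D3 (u₀ ≫ m))
    (h1 : T3 A (f ≫ m)) : T3 A m := fun u => by
  obtain ⟨n, hn⟩ := hb (u ≫ g)
  obtain ⟨v, hv⟩ := D.lift₂ (u - n • u₀) (by
    rw [Preadditive.sub_comp, hn, Preadditive.zsmul_comp, sub_self])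
  obtain ⟨w, hw⟩ := h1 v
  obtain ⟨k, hk⟩ := h0
  refine ⟨w + n • k, ?_⟩
  rw [smul_add, ← hw, reassoc_of% hv, smul_comm, ← hk, Preadditive.sub_comp,
    Preadditive.zsmul_comp, sub_add_cancel]

theorem Gen.step {A Y₁ Y₂ Y₃ : W.T₀.C} {f : Y₁ ⟶ Y₂} {g : Y₂ ⟶ Y₃} {h : Y₃ ⟶ Y₁⟦(1 : ℤ)⟧}
    (D : Dist f g h) {b : A ⟶ Y₁} (hb : Gen b) (h0 : ∀ u : A ⟶ Y₃, u = 0) : Gen (b ≫ f) :=
  fun u => by
    obtain ⟨v, rfl⟩ := D.lift₂ u (h0 _)
    obtain ⟨n, rfl⟩ := hb v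
    exact ⟨n, Preadditive.zsmul_comp _ _ _⟩

theorem D3.left {A Y : W.T₀.C} {h : A ⟶ Y} (k : D3 h) (Z : W.T₀.C) : D3 (Z ◁ h) := by
  obtain ⟨k, rfl⟩ := k
  exact ⟨Z ◁ k, (tensorLeft Z).map_zsmul⟩

theorem D3.right {A Y : W.T₀.C} {h : A ⟶ Y} (k : D3 h) (Z : W.T₀.C) : D3 (h ▷ Z) := by
  obtain ⟨k, rfl⟩ := k
  exact ⟨k ▷ Z, (tensorRight Z).map_zsmul⟩

theorem D3.post {A Y Z : W.T₀.C} {h : A ⟶ Y} (k : D3 h) (f : Y ⟶ Z) : D3 (h ≫ f) := by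
  obtain ⟨k, rfl⟩ := k
  exact ⟨k ≫ f, Preadditive.zsmul_comp _ _ _⟩

theorem d3_three (S : W.T₀.C) : D3 (-((3 : ℤ) • 𝟙 S)⟦(1 : ℤ)⟧') :=
  ⟨-𝟙 _, by rw [Functor.map_zsmul, CategoryTheory.Functor.map_id, smul_neg]⟩

theorem exists_diff {S M A Y₂ Y₃ Z : W.T₀.C} {i : S ⟶ M} {q : M ⟶ A} {h : A ⟶ S⟦(1 : ℤ)⟧}
    (D : Dist i q h) (hh : D3 h) {a a' : M ⟶ Y₂} (e : i ≫ a = i ≫ a') {g : Y₂ ⟶ Y₃} {b : A ⟶ Y₃}
    (h1 : a ≫ g = q ≫ b) (h2 : a' ≫ g = 0) (h3 : (3 : ℤ) • 𝟙 Y₃ = 0) {m : Y₂ ⟶ Z}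
    (h4 : a ≫ m = a' ≫ m) : ∃ u : A ⟶ Y₂, u ≫ g = b ∧ D3 (u ≫ m) := by
  obtain ⟨u, hu⟩ := D.desc₂ (a - a') (by rw [Preadditive.comp_sub, e, sub_self])
  refine ⟨u, ?_, ?_⟩
  · obtain ⟨v, hv⟩ := D.desc₃ (u ≫ g - b) (by
      rw [Preadditive.comp_sub, reassoc_of% hu, Preadditive.sub_comp, h1, h2, sub_zero, sub_self])
    obtain ⟨k, hk⟩ := hh.post v
    rw [← sub_eq_zero, ← hv, hk, ← Category.comp_id k, ← Preadditive.comp_zsmul, h3, comp_zero]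
  · obtain ⟨v, hv⟩ := D.desc₃ (u ≫ m) (by
      rw [reassoc_of% hu, Preadditive.sub_comp, h4, sub_self])
    exact hv ▸ hh.post v

theorem rot_sph {S : W.T₀.C} {d : ℤ} (hS : Sph S d) : rot S S S = 𝟙 _ := by
  have h := hS.tensor (hS.tensor hS)
  obtain ⟨m, hm⟩ := h.end_int (rot S S S)
  have h1 := rot_rot_rot S S S
  rw [hm, Preadditive.zsmul_comp, Preadditive.zsmul_comp, Category.id_comp, Category.id_comp,
    smul_smul, smul_smul, ← sub_eq_zero] at h1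
  have h2 : m * m * m - 1 = 0 := h.zsmul_inj _ (by rw [sub_smul, one_smul, h1])
  have h3 : m = 1 := by
    rcases Int.eq_one_or_neg_one_of_mul_eq_one (u := m) (v := m * m) (by linarith) with h | h
    · exact h
    · rw [h] at h2
      norm_num at h2
  rw [hm, h3, one_smul]

theorem three_left {Y : W.T₀.C} (h : (3 : ℤ) • 𝟙 Y = 0) (Z : W.T₀.C) :
    (3 : ℤ) • 𝟙 (Z ⊗ Y) = 0 := by
  rw [← MonoidalCategory.whiskerLeft_id, ← MonoidalPreadditive.whiskerLeft_zero, ← h]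
  exact ((tensorLeft Z).map_zsmul).symm

theorem dist_left {S X : W.T₀.C} {j : S ⟶ X} {δ : X ⟶ S⟦(1 : ℤ)⟧} {n : ℤ}
    (D : Dist (n • 𝟙 S) j δ) (Z : W.T₀.C) :
    Dist (n • 𝟙 (Z ⊗ S)) (Z ◁ j) (Z ◁ δ ≫ (rS _ _).hom) := by
  have h : Z ◁ (n • 𝟙 S) = n • 𝟙 _ :=
    ((tensorLeft Z).map_zsmul).trans (congrArg _ (MonoidalCategory.whiskerLeft_id _ _))
  exact h ▸ Ms.dist_r D Z

/-- The third power of a map out of a Moore spectrum. -/
theorem t3_cube {S X Z A : W.T₀.C} {d : ℤ} (hS : Sph S d) {j : S ⟶ X} {δ : X ⟶ S⟦(1 : ℤ)⟧}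
    (D : Dist ((3 : ℤ) • 𝟙 S) j δ) {m : X ⊗ X ⊗ X ⟶ Z} (hm : rot X X X ≫ m = m)
    (hA : Sph A (3 * d + 1)) : T3 A m := by
  have h1 := hS.shift 1
  have cX : BigCell W.T₀.C d X := BigCell.ext _ D.rot hS.cell (h1.cell.mono (by omega))
  have s₁ : Sph (S⟦(1 : ℤ)⟧ ⊗ S ⊗ S) (3 * d + 1) := (h1.tensor (hS.tensor hS)).cast (by ring)
  have s₂ : Sph (S ⊗ S⟦(1 : ℤ)⟧ ⊗ S) (3 * d + 1) := (hS.tensor (h1.tensor hS)).cast (by ring)
  have k₃ : T3 A (S ◁ (j ▷ X) ≫ j ▷ (X ⊗ X) ≫ m) := fun u => ⟨0, by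
    rw [of_sph (hS.tensor (hS.tensor hS)) (dist_left (dist_left D S) S) hA (by omega) (by omega) u,
      zero_comp, smul_zero]⟩
  have k₂ : T3 A (j ▷ (X ⊗ X) ≫ m) := by
    obtain ⟨u, hu, hu'⟩ := exists_diff (Ms.dist_r (Ms.dist_l D.rot S) S)
      (((((d3_three S).right S).post _).left S).post _) (a := S ◁ X ◁ j)
      (a' := rot S X S ≫ S ◁ (j ▷ X)) (g := S ◁ (δ ▷ X)) (b := S ◁ S⟦(1 : ℤ)⟧ ◁ j)
      (m := j ▷ (X ⊗ X) ≫ m) (by
        rw [← id_tensorHom S (j ▷ S), ← tensorHom_id j S, rot_natural_assoc, rot_sph hS]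
        simp only [id_tensorHom, tensorHom_id, Category.id_comp,
          ← MonoidalCategory.whiskerLeft_comp, whisker_exchange])
      (by rw [← MonoidalCategory.whiskerLeft_comp, ← MonoidalCategory.whiskerLeft_comp,
        whisker_exchange])
      (by rw [Category.assoc, ← MonoidalCategory.whiskerLeft_comp, ← comp_whiskerRight, D.zero₂₃,
        MonoidalPreadditive.zero_whiskerRight, MonoidalPreadditive.whiskerLeft_zero, comp_zero])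
      (three_left (three_left (three_id hS D) _) _) (by
        have h := rot_natural j (𝟙 X) j
        simp only [MonoidalCategory.tensorHom_def', id_whiskerRight,
          MonoidalCategory.whiskerLeft_id, Category.comp_id, Category.id_comp,
          Category.assoc] at h
        rw [Category.assoc, ← reassoc_of% h, hm])
    have g : Gen (𝟙 _ ≫ S ◁ S⟦(1 : ℤ)⟧ ◁ j) :=
      Gen.step (Ms.dist_r (Ms.dist_r D.rot _) S) s₂.end_int fun u =>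
        s₂.eq_zero (cell_conn (hS.tensor (h1.tensor h1)).cell) (by omega) u
    rw [Category.id_comp, ← hu] at g
    obtain ⟨e⟩ := hA.iso s₂
    exact (T3.step (Ms.dist_r (Ms.dist_l D.rot X) S) g hu' (k₃.of_iso e.symm)).of_iso e
  obtain ⟨u, hu, hu'⟩ := exists_diff (Ms.dist_l D.rot (S ⊗ S))
    (((d3_three S).right _).post _) (a := X ◁ (j ⊗ₘ j))
    (a' := inv (rot S S X) ≫ S ◁ (j ▷ X) ≫ j ▷ (X ⊗ X)) (g := δ ▷ (X ⊗ X))
    (b := S⟦(1 : ℤ)⟧ ◁ (j ⊗ₘ j)) (m := m) (by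
      have h := rot_natural (𝟙 S) (𝟙 S) j
      simp only [id_tensorHom, tensorHom_id, id_whiskerRight, rot_sph hS,
        Category.id_comp] at h
      conv_rhs => rw [← h, Category.assoc, IsIso.hom_inv_id_assoc,
        ← MonoidalCategory.whiskerLeft_comp_assoc, ← MonoidalCategory.tensorHom_def' j j]
      rw [whisker_exchange])
    (whisker_exchange _ _)
    (by rw [Category.assoc, Category.assoc, ← comp_whiskerRight, D.zero₂₃,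
      MonoidalPreadditive.zero_whiskerRight, comp_zero, comp_zero])
    (three_left (three_left (three_id hS D) _) _) (by
      have h := rot_natural j j (𝟙 X)
      simp only [id_tensorHom, tensorHom_id] at h
      rw [MonoidalCategory.tensorHom_def'] at h
      rw [Category.assoc, IsIso.eq_inv_comp, ← reassoc_of% h, hm]
      simp only [Category.assoc])
  have g : Gen ((𝟙 _ ≫ S⟦(1 : ℤ)⟧ ◁ S ◁ j) ≫ S⟦(1 : ℤ)⟧ ◁ (j ▷ X)) :=
    Gen.step (Ms.dist_r (Ms.dist_l D.rot X) _) (Gen.step (Ms.dist_r (Ms.dist_r D.rot S) _)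
      s₁.end_int fun u => s₁.eq_zero (cell_conn (h1.tensor (hS.tensor h1)).cell) (by omega) u)
      fun u => s₁.eq_zero (cell_conn (h1.cell.tensor (h1.cell.tensor cX _ rfl) _ rfl)) (by omega) u
  rw [Category.id_comp, ← MonoidalCategory.whiskerLeft_comp, ← MonoidalCategory.tensorHom_def',
    ← hu] at g
  obtain ⟨e⟩ := hA.iso s₁
  exact (T3.step (Ms.dist_l D.rot (X ⊗ X)) g hu' (k₂.of_iso e.symm)).of_iso e

end Vale.Agent.P236TD
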