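import Vale.Agent.P236TD.Fin

/-!
# P236, the Toda cell: duality for the Moore spectrum
-/

open CategoryTheory MonoidalCategory Limits Pretriangulated
open Vale.Agent.P251 Vale.Agent.P251.T Vale.Agent.P251.M Vale.Agent.P251.H
open Vale.Agent.P236Z Vale.Agent.P236Z.Cat Vale.Agent.P236Z.SS

noncomputable section

namespace Vale.Agent.P236TD

variable {W : Tower} {H : W.T₀.C} {e : 𝟙_ W.T₀.C ⟶ H}

theorem inv_of_sph {A : W.T₀.C} {n : ℤ} (h : Sph A n) :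
    Nonempty (A ⊗ (𝟙_ W.T₀.C)⟦(-n : ℤ)⟧ ≅ 𝟙_ W.T₀.C) :=
  (Sph.cast (h.tensor ⟨Iso.refl _⟩) (add_neg_cancel _)).iso sph_unit

theorem sph_one : Sph ((𝟙_ W.T₀.C)⟦(1 : ℤ)⟧) 1 := ⟨Iso.refl _⟩

theorem af_shift {s : ℕ} {A B : W.T₀.C} {f : A ⟶ B} :
    Tr.AF e s (f⟦(1 : ℤ)⟧') ↔ Tr.AF e s f := by
  refine ⟨fun h => Tr.AF.of_whiskerRight (inv_of_sph sph_one).some ?_, fun h => ?_⟩
  · rw [← Category.comp_id (f ▷ _), ← (TensorTriangulated.e B).hom_inv_id,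
      ← Category.assoc, TensorTriangulated.e_naturality, Category.assoc]
    exact (h.post _).pre _
  · rw [← Category.id_comp (f⟦(1 : ℤ)⟧'), ← (TensorTriangulated.e A).inv_hom_id, Category.assoc,
      ← TensorTriangulated.e_naturality]
    exact ((h.whiskerRight _).post _).pre _

variable {M : W.T₀.C} {i : 𝟙_ W.T₀.C ⟶ M} {δ : M ⟶ (𝟙_ W.T₀.C)⟦(1 : ℤ)⟧}
  (D : Dist ((3 : ℤ) • 𝟙 (𝟙_ W.T₀.C)) i δ)

include D

theorem exists_du : ∃ (ev : M ⊗ M ⟶ (𝟙_ W.T₀.C)⟦(1 : ℤ)⟧) (co : (𝟙_ W.T₀.C)⟦(1 : ℤ)⟧ ⟶ M ⊗ M)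
    (n : ℤ), (λ_ M).inv ≫ i ▷ M ≫ ev = n • δ ∧
      co ▷ M ≫ (α_ _ _ _).hom ≫ M ◁ ev = (β_ _ _).hom := by
  obtain ⟨ev, hev⟩ := ext_of (dist_left D M) ((ρ_ M).hom ≫ δ) (by
    rw [← Preadditive.comp_zsmul, smul_δ D, comp_zero])
  obtain ⟨co, hco⟩ := (Ms.dist_r D.rot M).lift₃ ((λ_ _).inv ≫ i ▷ _) (by
    obtain ⟨k, hk⟩ := ((d3_three (𝟙_ W.T₀.C)).left M).post (rS _ _).hom
    have h : (3 : ℤ) • i ▷ (𝟙_ W.T₀.C)⟦(1 : ℤ)⟧ = ((3 : ℤ) • i) ▷ _ :=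
      ((tensorRight _).map_zsmul).symm
    rw [hk, Preadditive.comp_zsmul, ← Preadditive.zsmul_comp, ← Preadditive.comp_zsmul, h,
      smul_i D, MonoidalPreadditive.zero_whiskerRight, comp_zero, zero_comp])
  obtain ⟨a, ha⟩ := D.rot.desc₂ ((λ_ M).inv ≫ i ▷ M ≫ ev)
    (sph_unit.eq_zero (cell_conn sph_one.cell) (by norm_num) _)
  obtain ⟨n, rfl⟩ := sph_one.end_int a
  refine ⟨ev, co, n, by rw [← ha, Preadditive.comp_zsmul, Category.comp_id], ?_⟩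
  obtain ⟨u, hu⟩ := (Ms.dist_r D.rot ((𝟙_ W.T₀.C)⟦(1 : ℤ)⟧)).desc₂
    (co ▷ M ≫ (α_ _ _ _).hom ≫ M ◁ ev - (β_ _ _).hom) (by
      rw [Preadditive.comp_sub, whisker_exchange_assoc, associator_naturality_right_assoc,
        ← MonoidalCategory.whiskerLeft_comp, hev, BraidedCategory.braiding_naturality_right,
        braiding_tensorUnit_right, Category.assoc, ← hco, sub_eq_zero]
      simp)
  have h0 : u = 0 := by
    rw [← cancel_mono (β_ _ _).hom, zero_comp]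
    exact of_sph (sph_one.tensor sph_unit) (dist_left D _) (sph_one.tensor sph_one) (by norm_num)
      (by norm_num) _
  rw [← sub_eq_zero, ← hu, h0, comp_zero]

omit D in
theorem sharp_rec {T A Y : W.T₀.C} (ev : M ⊗ M ⟶ T) (co : T ⟶ M ⊗ M) (g : A ⊗ M ⟶ Y) :
    (A ◁ co ≫ (α_ _ _ _).inv ≫ g ▷ M) ▷ M ≫ (α_ _ _ _).hom ≫ Y ◁ ev =
      (α_ _ _ _).hom ≫ A ◁ (co ▷ M ≫ (α_ _ _ _).hom ≫ M ◁ ev) ≫ (α_ _ _ _).inv ≫ g ▷ T := by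
  rw [comp_whiskerRight, comp_whiskerRight, Category.assoc, Category.assoc,
    associator_naturality_left_assoc, ← whisker_exchange]
  monoidal

theorem moore_iso {S X : W.T₀.C} {j : S ⟶ X} {d : X ⟶ S⟦(1 : ℤ)⟧}
    (E : Dist ((3 : ℤ) • 𝟙 S) j d) : Nonempty (S ⊗ M ≅ X) := by
  have h := Tr.dist_iso (dist_left D S) (ρ_ S).symm (ρ_ S).symm (Iso.refl _)
    (f' := (3 : ℤ) • 𝟙 S) (g' := (ρ_ S).inv ≫ S ◁ i) (by simp) (Category.comp_id _)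
  obtain ⟨c, h1, h2⟩ := h.map₃ E (𝟙 _) (𝟙 _) (by simp)
  have := h.iso₃ E c (h1.trans (Category.id_comp _)) (by simpa using h2)
  exact ⟨asIso c⟩

/-- from the homotopy of the Moore spectrum to maps out of a Moore spectrum -/
theorem dual_in {S : W.T₀.C} {f : S⟦(1 : ℤ)⟧ ⟶ M} {θ : S ⟶ 𝟙_ W.T₀.C}
    (hf : f ≫ δ = θ⟦(1 : ℤ)⟧') (h : ¬ Tr.AF e 2 f) :
    ∃ (X : W.T₀.C) (j : S ⟶ X) (d : X ⟶ S⟦(1 : ℤ)⟧) (g : X ⟶ 𝟙_ W.T₀.C) (n : ℤ),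
      Dist ((3 : ℤ) • 𝟙 S) j d ∧ j ≫ g = n • θ ∧ ¬ Tr.AF e 2 g := by
  obtain ⟨ev, co, n, h1, h2⟩ := exists_du D
  obtain ⟨g, hg⟩ := (shiftFunctor _ (1 : ℤ)).map_surjective ((rS M S).inv ≫ M ◁ f ≫ ev)
  have h3 : ((3 : ℤ) • 𝟙 (𝟙_ W.T₀.C)) ▷ S = (3 : ℤ) • 𝟙 _ :=
    ((tensorRight S).map_zsmul).trans (congrArg _ (id_whiskerRight _ _))
  refine ⟨M ⊗ S, (λ_ S).inv ≫ i ▷ S, _, g, n, Tr.dist_iso (Ms.dist_l D S) (λ_ S).symm (λ_ S).symm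
    (Iso.refl _) (by simp [h3]) (Category.comp_id _), ?_, fun k => h ?_⟩
  · apply (shiftFunctor _ (1 : ℤ)).map_injective
    have h4 := hur_shift (e := i) S
    rw [Tr.hur, Tr.hur] at h4
    rw [Functor.map_comp, hg, ← h4, Category.assoc, Iso.hom_inv_id_assoc, Category.assoc,
      ← whisker_exchange_assoc, ← leftUnitor_inv_naturality_assoc, h1, Preadditive.comp_zsmul, hf,
      Functor.map_zsmul]
  · have k1 := ((((af_shift.2 k).pre (rS M S).hom).whiskerLeft M).pre (α_ _ _ _).hom).pre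
      (co ▷ _)
    rw [hg, Iso.hom_inv_id_assoc, MonoidalCategory.whiskerLeft_comp,
      ← associator_naturality_right_assoc, ← whisker_exchange_assoc, h2] at k1
    refine Tr.AF.of_whiskerLeft (inv_of_sph sph_one).some ?_
    simpa using k1.post (β_ _ _).inv

/-- from maps out of a Moore spectrum to the homotopy of the Moore spectrum -/
theorem dual_out {S X : W.T₀.C} {j : S ⟶ X} {d : X ⟶ S⟦(1 : ℤ)⟧}
    (E : Dist ((3 : ℤ) • 𝟙 S) j d) {g : X ⟶ 𝟙_ W.T₀.C} (h : ¬ Tr.AF e 2 g) :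
    ∃ f : S⟦(1 : ℤ)⟧ ⟶ M, ¬ Tr.AF e 2 f := by
  obtain ⟨ev, co, -, -, h2⟩ := exists_du D
  obtain ⟨c⟩ := moore_iso D E
  have := equiv_right (inv_of_sph (W := W) sph_one).some
  obtain ⟨f, hf⟩ := (tensorRight ((𝟙_ W.T₀.C)⟦(1 : ℤ)⟧)).map_surjective
    ((_ ◁ co ≫ (α_ _ _ _).inv ≫ ((lS S M).hom ≫ (c.hom ≫ g)⟦(1 : ℤ)⟧') ▷ M) ≫ (β_ _ _).hom)
  change f ▷ _ = _ at hf
  refine ⟨f, fun k => h ?_⟩
  have k1 := (((k.whiskerRight ((𝟙_ W.T₀.C)⟦(1 : ℤ)⟧)).post (β_ _ _).inv).whiskerRight M).post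
    ((α_ _ _ _).hom ≫ _ ◁ ev)
  rw [hf, Category.assoc _ (β_ _ _).hom, Iso.hom_inv_id, Category.comp_id, sharp_rec, h2] at k1
  have k2 := ((k1.pre (α_ _ _ _).inv).pre (_ ◁ (β_ _ _).inv)).pre (α_ _ _ _).hom
  rw [Iso.inv_hom_id_assoc, whiskerLeft_inv_hom_assoc, Iso.hom_inv_id_assoc] at k2
  have k3 := (Tr.AF.of_whiskerRight (inv_of_sph sph_one).some k2).pre (lS S M).inv
  rw [Iso.inv_hom_id_assoc] at k3
  simpa using (af_shift.1 k3).pre c.inv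

/-- annihilation by the homotopy of the Moore spectrum -/
theorem dual_zero {S S' X B : W.T₀.C} {n : ℤ} (hS : Sph S n) (hS' : Sph S' (n + 4)) {j : S' ⟶ X}
    {d : X ⟶ S'⟦(1 : ℤ)⟧} (E : Dist ((3 : ℤ) • 𝟙 S') j d) {x : S ⟶ B}
    (hx : ∀ v : (𝟙_ W.T₀.C)⟦(4 : ℤ)⟧ ⟶ M, v ⊗ₘ x = 0) (y : X ⟶ S⟦(1 : ℤ)⟧) :
    y ≫ x⟦(1 : ℤ)⟧' = 0 := by
  obtain ⟨ev, co, -, -, h2⟩ := exists_du D
  obtain ⟨c⟩ := moore_iso D E
  have := equiv_right (inv_of_sph (hS.shift 1)).some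
  have := equiv_right (inv_of_sph (W := W) sph_one).some
  obtain ⟨a⟩ := (hS'.tensor sph_one).iso
    ((Sph.tensor (d := 4) ⟨Iso.refl _⟩ (hS.shift 1)).cast (by ring))
  obtain ⟨v, hv⟩ := (tensorRight (S⟦(1 : ℤ)⟧)).map_surjective
    (a.inv ≫ (_ ◁ co ≫ (α_ _ _ _).inv ≫ (c.hom ≫ y) ▷ M) ≫ (β_ _ _).hom)
  change v ▷ _ = _ at hv
  have h1 : v ▷ S⟦(1 : ℤ)⟧ ≫ M ◁ x⟦(1 : ℤ)⟧' = 0 := by
    rw [← MonoidalCategory.tensorHom_def, ← cancel_mono (rS _ _).hom, rS_nat, hx, Functor.map_zero,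
      comp_zero, zero_comp]
  rw [hv, Category.assoc, Category.assoc, ← BraidedCategory.braiding_naturality_left,
    Preadditive.IsIso.comp_left_eq_zero, ← Category.assoc, Preadditive.IsIso.comp_right_eq_zero,
    Category.assoc, Category.assoc, ← comp_whiskerRight] at h1
  have h3 := sharp_rec ev co ((c.hom ≫ y) ≫ x⟦(1 : ℤ)⟧')
  rw [h1, MonoidalPreadditive.zero_whiskerRight, zero_comp, h2, eq_comm,
    Preadditive.IsIso.comp_left_eq_zero, Preadditive.IsIso.comp_left_eq_zero,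
    Preadditive.IsIso.comp_left_eq_zero] at h3
  rw [← cancel_epi c.hom, comp_zero, ← Category.assoc]
  exact (tensorRight ((𝟙_ W.T₀.C)⟦(1 : ℤ)⟧)).map_injective
    (h3.trans ((tensorRight _).map_zero _ _).symm)

end Vale.Agent.P236TD
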