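import Vale.Agent.P236TD.Asm
import Vale.Agent.P236TD.Cub

/-!
# P236, the Toda cell: removal of the bottom stage
-/

open CategoryTheory MonoidalCategory Limits Pretriangulated
open Vale.Agent.P251 Vale.Agent.P251.T Vale.Agent.P251.M Vale.Agent.P251.H
open Vale.Agent.P236Z Vale.Agent.P236Z.Cat Vale.Agent.P236Z.SS

noncomputable section

namespace Vale.Agent.P236TD

variable {W : Tower} {H : W.T₀.C} {e : 𝟙_ W.T₀.C ⟶ H}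

theorem af_add : ∀ {s : ℕ} {A B : W.T₀.C} {f g : A ⟶ B}, Tr.AF e s f → Tr.AF e s g →
    Tr.AF e s (f + g)
  | 0, _, _, _, _, _, _ => trivial
  | _ + 1, _, _, _, _, ⟨C, a, h, e₁, ha, hh⟩, ⟨C', a', h', e₂, ha', hh'⟩ =>
    ⟨C ⊞ C', a ≫ biprod.inl + a' ≫ biprod.inr, biprod.desc h h', by simp [e₁, e₂],
      af_add (ha.post _) (ha'.post _), biprod.hom_ext' _ _
        (by rw [biprod.inl_desc_assoc, hh, comp_zero])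
        (by rw [biprod.inr_desc_assoc, hh', comp_zero])⟩

theorem ext_first {X Y Z A : W.T₀.C} {f : X ⟶ Y} {g : Y ⟶ Z} {h : Z ⟶ X⟦(1 : ℤ)⟧}
    (D : Dist f g h) (a : X ⟶ A) (ha : h ≫ a⟦(1 : ℤ)⟧' = 0) : ∃ b : Y ⟶ A, f ≫ b = a := by
  obtain ⟨b, hb⟩ := D.desc₁ _ ha
  obtain ⟨b, rfl⟩ := (shiftFunctor _ (1 : ℤ)).map_surjective b
  exact ⟨b, (shiftFunctor _ (1 : ℤ)).map_injective (by rw [Functor.map_comp, hb])⟩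

theorem exists_four (he : Tr.IsHF 3 e) {S X : W.T₀.C} {d : ℤ} (hS : Sph S d)
    {j : S ⟶ X} {δ : X ⟶ S⟦(1 : ℤ)⟧} (D : Dist ((3 : ℤ) • 𝟙 S) j δ) {m : X ⊗ X ⊗ X ⟶ 𝟙_ W.T₀.C}
    (hm : rot X X X ≫ m = m) {S' X' : W.T₀.C} (hS' : Sph S' (3 * d + 4))
    {j' : S' ⟶ X'} {δ' : X' ⟶ S'⟦(1 : ℤ)⟧} (D' : Dist ((3 : ℤ) • 𝟙 S') j' δ')
    {A K : W.T₀.C} {iA : S ⊗ S ⊗ S ⟶ A} {jA : A ⟶ (S ⊗ S ⊗ S)⟦(1 : ℤ)⟧} {φ : A ⟶ X ⊗ X ⊗ X}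
    {iK : A ⟶ K} {pK : K ⟶ X'} {ψ : X' ⟶ A⟦(1 : ℤ)⟧} {G : K ⟶ 𝟙_ W.T₀.C}
    (DA : Dist ((27 : ℤ) • 𝟙 _) iA jA) (hφ : iA ≫ φ = j ⊗ₘ j ⊗ₘ j) (DK : Dist iK pK ψ)
    (hG : iK ≫ G = φ ≫ m) (hG' : ¬ Tr.AF e 2 G) {B : W.T₀.C} {p : B ⟶ 𝟙_ W.T₀.C}
    {x : S ⊗ S ⊗ S ⟶ B} (hp : Tr.AF e 2 p) (hx : x ≫ p = (j ⊗ₘ j ⊗ₘ j) ≫ m)
    (h9 : (9 : ℤ) • x = 0) (hv : ∀ y : X' ⟶ (S ⊗ S ⊗ S)⟦(1 : ℤ)⟧, y ≫ x⟦(1 : ℤ)⟧' = 0) :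
    ∃ θ : X' ⟶ 𝟙_ W.T₀.C, ¬ Tr.AF e 2 θ := by
  have s3 : Sph ((S ⊗ S ⊗ S)⟦(1 : ℤ)⟧) (3 * d + 1) :=
    ((hS.tensor (hS.tensor hS)).shift 1).cast (by ring)
  have t3 : ∀ {Y : W.T₀.C} (a : (S ⊗ S ⊗ S)⟦(1 : ℤ)⟧ ⟶ Y),
      jA ≫ ((3 : ℤ) • 𝟙 _)⟦(1 : ℤ)⟧' ≫ a = (3 : ℤ) • (jA ≫ a) := fun a => by
    rw [Functor.map_zsmul, CategoryTheory.Functor.map_id, Preadditive.zsmul_comp, Category.id_comp,
      Preadditive.comp_zsmul]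
  obtain ⟨M, i, q, E⟩ := exists_cone ((9 : ℤ) • 𝟙 (S ⊗ S ⊗ S))
  obtain ⟨κ, κ1, κ2⟩ := DA.map₃ E ((3 : ℤ) • 𝟙 _) (𝟙 _) (by
    rw [Category.comp_id, Preadditive.zsmul_comp, Category.id_comp, smul_smul]
    rfl)
  obtain ⟨κ', κ3, -⟩ := E.map₃ (dist_left (dist_left D S) S) ((3 : ℤ) • 𝟙 _) (𝟙 _) (by
    rw [Category.comp_id, Preadditive.zsmul_comp, Category.id_comp, smul_smul]
    rfl)
  rw [Category.id_comp] at κ1 κ3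
  obtain ⟨x', rfl⟩ := ext_of E x h9
  obtain ⟨y, hy⟩ := E.rot.rot.lift₁ (ψ ≫ κ⟦(1 : ℤ)⟧') (by
    rw [Category.assoc, ← Functor.map_comp, ← κ2, ← Category.comp_id (jA ≫ _), Category.assoc, t3,
      Functor.map_zsmul, Preadditive.comp_zsmul, three_src hS' D'])
  obtain ⟨x'', hx''⟩ := ext_first DK (κ ≫ x') (by
    rw [Functor.map_comp, ← reassoc_of% hy, Preadditive.neg_comp, Preadditive.comp_neg,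
      ← Functor.map_comp, hv, neg_zero])
  have h0 : (S ◁ S ◁ j) ≫ (j ⊗ₘ j ⊗ₘ 𝟙 X) = j ⊗ₘ j ⊗ₘ j := by
    simp only [← id_tensorHom, tensorHom_comp_tensorHom, Category.id_comp, Category.comp_id]
  obtain ⟨w₁, h1⟩ := E.desc₃ (κ' ≫ (j ⊗ₘ j ⊗ₘ 𝟙 X) ≫ m - x' ≫ p) (by
    rw [Preadditive.comp_sub, reassoc_of% κ3, reassoc_of% h0, ← hx, Category.assoc, sub_self])
  obtain ⟨u, h2⟩ := DA.desc₃ (φ - κ ≫ κ' ≫ (j ⊗ₘ j ⊗ₘ 𝟙 X)) (by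
    rw [Preadditive.comp_sub, reassoc_of% κ1, reassoc_of% κ3, h0, hφ, sub_self])
  obtain ⟨w₂, h3⟩ := t3_cube hS D hm s3 u
  obtain ⟨l, hl⟩ := ext_first DK ((3 : ℤ) • jA) (by
    rw [Functor.map_zsmul, Preadditive.comp_zsmul, three_src hS' D'])
  have h4 : Tr.Null e l := by
    obtain ⟨v, hv⟩ := DK.desc₂ (l ≫ Tr.hur e _) (by
      rw [reassoc_of% hl, Preadditive.zsmul_comp, ← Preadditive.comp_zsmul, three_hur he,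
        comp_zero])
    rw [Tr.Null, ← hv, (cone_cell D' hS' hS' (D := fun n => n ≠ 3 * d + 1) (by omega)
      (by omega)).hom_zero (fun k hk g => toH_sph he ⟨Iso.refl _⟩ s3 hk g) v, comp_zero]
  have h5 : Tr.Null e (w₁ + w₂) := (Tr.null_unit_iff _).2
    ((sph_cell s3 (D := fun n => n ≠ 0) (by omega)).hom_zero he.conc _)
  obtain ⟨θ, hθ⟩ := DK.desc₂ (G - (x'' ≫ p + l ≫ (w₁ + w₂))) (by
    have h6 : κ ≫ κ' ≫ (j ⊗ₘ j ⊗ₘ 𝟙 X) ≫ m = κ ≫ x' ≫ p + (3 : ℤ) • (jA ≫ w₁) := by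
      rw [← t3, reassoc_of% κ2, h1, Preadditive.comp_sub, add_sub_cancel]
    have h7 : φ ≫ m = κ ≫ κ' ≫ (j ⊗ₘ j ⊗ₘ 𝟙 X) ≫ m + (3 : ℤ) • (jA ≫ w₂) := by
      rw [← Preadditive.comp_zsmul, ← h3, reassoc_of% h2, Preadditive.sub_comp, Category.assoc,
        Category.assoc, add_sub_cancel]
    rw [Preadditive.comp_sub, Preadditive.comp_add, hG, reassoc_of% hx'', reassoc_of% hl, h7, h6,
      Preadditive.zsmul_comp, Preadditive.comp_add, smul_add, add_assoc, sub_self])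
  refine ⟨θ, fun h => hG' ?_⟩
  rw [← sub_add_cancel G (x'' ≫ p + l ≫ (w₁ + w₂)), ← hθ]
  exact af_add (h.pre _) (af_add (hp.pre _) ((Tr.AF.of_null h4).succ h5))

end Vale.Agent.P236TD
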