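import Vale.Agent.P236TD.GenL

/-!
# P236TD / GenA : checks in the stems 282 and 286
-/

namespace Vale.Agent.P236TD

open Vale.Agent.P236EL Vale.Agent.P236KE Vale.Agent.P236K3 Vale.Agent.P236F Vale.Agent.P236JX
  Vale.Agent.P236JT Vale.Agent.P236JG

theorem x282 : grd (eJ.exCF 6 72 5 1 k5) (grd (eJ.exCF 6 72 6 1 k6)
    (grd (eJ.exCF 6 72 7 1 k7) (eJ.exCF 6 72 8 2 k8))) = true := by
  decide +kernel

theorem h281 : eJ.htAF 7 72 5 55 = true := by
  decide +kernel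

theorem a286 : grd (gw eJ 6 73 1 6 9 []) (gw eJ 6 73 1 9 11
    [(WJ.nm eJ 6 72 [(0, 8)] [(0, 10)] k8).cvm eJ 90 6 1]) = true := by
  decide +kernel

theorem b286 : grd (gw eJ 6 73 1 11 16 []) (gz eJ 6 73 1 16) = true := by
  decide +kernel

theorem h286 : eJ.htAF 6 73 0 62 = true := by
  decide +kernel

end Vale.Agent.P236TD
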