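import Vale.Agent.P236JT.Fa

/-!
# P236TD / GenD : chains of windows modulo the cube of `v_1` with computed generators
-/

noncomputable section

namespace Vale.Agent.P236TD

open Vale.Agent.P251.F Vale.Agent.P251.I Vale.Agent.P236SY Vale.Agent.P236R MvPolynomial
open Vale.Agent.P236EL Vale.Agent.P236KE Vale.Agent.P236K2 Vale.Agent.P236K3 Vale.Agent.P236F
open Vale.Agent.P236J3 Vale.Agent.P236JF Vale.Agent.P236JX Vale.Agent.P236JT Vale.Agent.P236JY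
open AddSubgroup

/-- the fast form of the test for generators -/
def geW (E : JD) (s T : Nat) (c c1 cb c2 : Cs) (l : List WJ) : Bool := E.bn s T (grd (Vis c c1)
  (grd (Le c cb) (grd (Vis cb c2) (WJ.runW (E.D.L s) T cb c2 l fun l =>
    genF E.D s T c c1 cb c2 l))))
/-- a step from the level `k` to the level `k'` -/
def gw (E : JD) (s T a k k' : Nat) (l : List WJ) : Bool :=
  geW E s T [(a, k), (3, 3)] [(a + 3, k + 3), (6, 6)] [(0, 0)] [(a, k'), (3, 3)] l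
/-- the last step -/
def gz (E : JD) (s T a k : Nat) : Bool :=
  E.geF s T [(a, k), (3, 3)] [(a + 3, k + 3), (6, 6)] [(0, 0)] [(3, 3)] []

variable [hp : Fact (Nat.Prime 3)] {G : ℕ → Type} [∀ q, Fintype (G q)] [DecidableEq (G 0)]
  {R : Rs 3 K G} {θ : G 0 → G 0 → Cob Laz 1} {E : JD} {ix : ∀ q, G (q + 1) → ℕ}
  {Tm s3 s4 s T a k k' N : ℕ} {c c' c1 : Cs} {l : List WJ} {x : G 0 → Cob Laz s}
  {u : G (s + 1) → A} {𝒵 : AddSubgroup (G 0 → Cob Laz s)} (H : WxJ R θ E ix Tm s3 s4)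

include H

theorem geW_eq : geW E = WJ.ge E := by
  funext s T c c1 cb c2 l
  exact H.bn_congr fun hT => grd_congr fun h1 => grd_congr fun h2 => grd_congr fun h3 =>
    congrArg _ (funext fun _ => genF_eq (H.cx.ok s) (H.cx.ok (s + 1)) (hT s) (hT (s + 1)) h1 h2 h3 _)

theorem hgw (hl : CLJ R θ E ix 𝒵 l) (hc : gw E s T a k k' l = true)
    (h : HG R θ T [(a, k'), (3, 3)] 𝒵) : HG R θ T [(a, k), (3, 3)] 𝒵 := by
  rw [gw, geW_eq H] at hc
  exact hl.hg H _ _ hc h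

theorem hgz (hc : gz E s T a k = true) (h : E.htAF s T 0 N = true) :
    HG R θ T [(a, k), (3, 3)] 𝒵 := H.hgStep _ _ _ (H.geF hc) .nil (hv H h)

/-- a class of filtration `c` -/
theorem mem_of (hg : HG R θ T c1 𝒵) {K₀ K₁ : Ideal A} (h : RcJ R θ s T K₀ K₁ x u)
    (h1 : K₀ ≤ mI c1) : x ∈ 𝒵 ⊔ BQ 3 θ (R.deg 0) T 3 s := by
  obtain ⟨y, hy, h2⟩ := h.ex
  simpa using add_mem (hg _ (sub_mem h.zc (H.wd.bz hy)) (Fl_mono p3 h1 h2.fl)) (mem_sup_right hy)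

/-- the product with `v_1` -/
theorem mem_v {t : Cob Laz 1} (ht : IsT1 3 t) {𝒵 : AddSubgroup (G 0 → Cob Laz s)}
    (hg : HG R θ (T + 1) c1 𝒵) (h : RcJ R θ s T (mI [(0, k)]) (mI [(0, k + 1)]) x u)
    (hs : s ≤ E.Q) (hT : ((T + 1 : ℕ) : ℤ) ≤ E.T) (h1 : Le [(1, k + 1)] c1 = true) :
    lc _ (zero_add s) v1 x ∈ 𝒵 ⊔ BQ 3 θ (R.deg 0) (T + 1 : ℕ) 3 s := by
  have h2 := rc_vm (k := 1) (w' := (T + 1 : ℕ)) H.wd (inv_mI _) (inv_mI _)
    (Vis.mul (by simp [Vis, inU_iff])) hT ht hs (by push_cast; ring) (zero_add s) (inv_v 1) h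
  rw [show v1 ^ 1 = v1 from pow_one _] at h2
  exact mem_of H hg h2 ((mI_shC_v 1 _).trans (Le.mI (c := [(1, k + 1)]) h1))

end Vale.Agent.P236TD

end
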