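import Vale.Agent.P236JG.Dat
import Vale.Agent.P236TD.GenD

/-!
# P236TD / GenL : leading terms in the stems 282 and 322
-/

namespace Vale.Agent.P236TD

open Vale.Agent.P236EL Vale.Agent.P236KE Vale.Agent.P236K3 Vale.Agent.P236F Vale.Agent.P236JX
  Vale.Agent.P236JT Vale.Agent.P236JG

/-- stem 282, level 5 -/
def k5 : List Tr :=
  [⟨5, 1, 0, 4, 0, 1⟩, ⟨19, 4, 0, 1, 0, 2⟩]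

/-- stem 282, level 6 -/
def k6 : List Tr :=
  [⟨6, 0, 3, 3, 0, 1⟩]

/-- stem 282, level 7 -/
def k7 : List Tr :=
  [⟨4, 0, 4, 3, 0, 1⟩, ⟨4, 3, 3, 0, 1, 2⟩, ⟨7, 2, 2, 3, 0, 1⟩]

/-- stem 282, level 8 -/
def k8 : List Tr :=
  [⟨20, 7, 1, 0, 0, 2⟩, ⟨0, 0, 6, 3, 0, 1⟩, ⟨3, 2, 4, 3, 0, 1⟩, ⟨3, 5, 3, 0, 1, 2⟩, ⟨6, 4, 2, 3,
  0, 1⟩, ⟨9, 3, 4, 2, 0, 2⟩, ⟨10, 5, 2, 2, 0, 2⟩, ⟨14, 7, 0, 2, 0, 2⟩]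

/-- stem 322, level 0 -/
def q0 : List Tr :=
  [⟨27, 0, 0, 0, 0, 1⟩]

/-- stem 322, level 7 -/
def q7 : List Tr :=
  [⟨11, 0, 7, 0, 0, 1⟩, ⟨14, 2, 5, 0, 0, 1⟩, ⟨20, 5, 2, 0, 0, 2⟩]

/-- stem 330 of `Y`, level 2 -/
def z2 : List Tr :=
  [⟨89, 1, 1, 0, 0, 1⟩, ⟨90, 2, 0, 0, 0, 2⟩]

/-- the product with `β ^ 4` -/
noncomputable def w4 (a b : Nat) (m : List Tr) : WJ :=
  ((((WJ.nm eJ 6 72 [(0, a)] [(0, b)] m).cbm eJ 90 6).cbm eJ 90 8).cbm eJ 90 10).cbm eJ 90 12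

end Vale.Agent.P236TD
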