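import Vale.Agent.P236JG.Dat
import Vale.Agent.P236JY.EmF
import Vale.Agent.P236TD.Af

/-!
# P236TD / KapC : checks in the stems 271 and 248 of the Moore spectrum
-/

namespace Vale.Agent.P236TD

open Vale.Agent.P236EL Vale.Agent.P236KE Vale.Agent.P236K3 Vale.Agent.P236F Vale.Agent.P236JX
  Vale.Agent.P236JT Vale.Agent.P236JG

/-- a cochain of stem 271 -/
def lX : List Tr := [⟨27, 0, 0, 0, 0, 1⟩, ⟨24, 0, 1, 0, 0, 2⟩]
/-- the other cochain of stem 271 -/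
def kX : List (List Tr) := [[⟨27, 0, 0, 0, 0, 2⟩, ⟨28, 0, 0, 0, 0, 1⟩, ⟨24, 0, 1, 0, 0, 2⟩]]
/-- a cochain of stem 248 -/
def lZ : List Tr := [⟨21, 0, 0, 0, 0, 1⟩]
/-- the other cochains of stem 248 -/
def kZ : List (List Tr) := [[⟨19, 1, 0, 0, 0, 1⟩], [⟨6, 0, 0, 0, 1, 1⟩, ⟨13, 0, 0, 1, 0, 1⟩],
  [⟨20, 0, 0, 0, 0, 1⟩, ⟨21, 0, 0, 0, 0, 1⟩]]
/-- the leading term in stem 272 -/
def lY : List Tr := [⟨27, 0, 0, 0, 0, 1⟩]
/-- the leading term in stem 249 -/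
def lN : List Tr := [⟨20, 0, 0, 0, 0, 1⟩]

/-- the product with the generator of stem 3 -/
noncomputable def oA (m : List Tr) : WJ := (WJ.nm eJ 9 70 [(0, 0)] [(0, 2)] m).ctm eJ 90 9 1
/-- the product with the class of stem 26 -/
noncomputable def oA' (m : List Tr) : WJ := (WJ.nm eJ 8 64 [(0, 0)] [(0, 2)] m).cb0 eJ 90 8 0
/-- a product into stem 303 -/
noncomputable def oB (m : List Tr) : WJ :=
  (((WJ.nm eJ 8 64 [(0, 0)] [(0, 2)] m).cbm eJ 90 8).cbm eJ 90 10).cgm eJ 90 12 (3 ^ 1) 0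
/-- another product into stem 303 -/
noncomputable def oB' (m : List Tr) : WJ :=
  (((((((WJ.nm eJ 3 63 [(0, 0)] [(0, 1)] m).cbm eJ 90 3).cbm eJ 90 5).cvm eJ 90 7 1).cbm
    eJ 90 7).cbm eJ 90 9).cbm eJ 90 11).neg
/-- a product into stem 326 -/
noncomputable def oC (m : List Tr) : WJ :=
  ((((((WJ.nm eJ 4 69 [(0, 0)] [(0, 1)] m).cbm eJ 90 4).cbm eJ 90 6).cvm eJ 90 8 1).cbm
    eJ 90 8).cbm eJ 90 10).cbm eJ 90 12
/-- another product into stem 326 -/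
noncomputable def oC' (m : List Tr) : WJ :=
  ((((WJ.nm eJ 9 70 [(0, 0)] [(0, 2)] m).cbm eJ 90 9).cbm eJ 90 11).cgm eJ 90 13 (3 ^ 1) 0).neg

theorem gX : eJ.geF 9 70 [(0, 0)] [(3, 3)] [(0, 0)] [(0, 2)] (lX :: kX) = true := by
  decide +kernel

theorem gZ : eJ.geF 8 64 [(0, 0)] [(3, 3)] [(0, 0)] [(0, 2)] (lZ :: kZ) = true := by
  decide +kernel

theorem ka : grd (af2 eJ 10 71 [(0, 2)] oA oA' kX kZ [] lZ)
    (af2 eJ 10 71 [(0, 2)] oA oA' kX kZ (twL lX) lZ) = true := by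
  decide +kernel

theorem kb : grd (af2 eJ 13 79 [(0, 2)] oB oB' kZ [] [] lN)
    (af2 eJ 13 79 [(0, 2)] oB oB' kZ [] (twL lZ) lN) = true := by
  decide +kernel

theorem kc : af2 eJ 14 85 [(0, 2)] oC oC' [] kX lY lX = true := by
  decide +kernel

end Vale.Agent.P236TD
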