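import Vale.Agent.P236JG.Dat
import Vale.Agent.P236JY.EmF
import Vale.Agent.P236JT.Lf

/-!
# P236TD / KfA : checks in the stems 290 and 282 of `Y`
-/

namespace Vale.Agent.P236TD

open Vale.Agent.P236EL Vale.Agent.P236KE Vale.Agent.P236K3 Vale.Agent.P236F Vale.Agent.P236JX
  Vale.Agent.P236JT Vale.Agent.P236JG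

/-- the classes of stem 290 -/
def l290 : List (List Tr) :=
  [[⟨98, 2, 6, 1, 0, 1⟩, ⟨101, 2, 8, 0, 0, 2⟩, ⟨94, 2, 9, 1, 0, 1⟩, ⟨92, 2, 10, 1, 0, 2⟩, ⟨47, 2,
  14, 0, 0, 2⟩], [⟨63, 1, 1, 1, 0, 2⟩, ⟨64, 0, 3, 0, 0, 1⟩, ⟨98, 0, 0, 3, 0, 2⟩, ⟨104, 1, 0, 2, 0,
  2⟩, ⟨106, 0, 2, 1, 0, 1⟩, ⟨109, 1, 2, 0, 0, 2⟩, ⟨58, 0, 2, 2, 0, 1⟩, ⟨103, 2, 0, 2, 0, 2⟩, ⟨59,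
  0, 4, 1, 0, 2⟩, ⟨105, 2, 2, 1, 0, 1⟩, ⟨63, 2, 4, 0, 0, 2⟩, ⟨94, 0, 3, 3, 0, 2⟩, ⟨97, 2, 1, 3, 0,
  2⟩, ⟨98, 1, 3, 2, 0, 1⟩, ⟨100, 2, 2, 2, 0, 1⟩, ⟨54, 2, 3, 2, 0, 2⟩, ⟨92, 0, 4, 3, 0, 1⟩, ⟨101,
  1, 5, 1, 0, 2⟩, ⟨59, 1, 7, 0, 0, 1⟩, ⟨93, 2, 3, 3, 0, 2⟩, ⟨96, 1, 5, 2, 0, 1⟩, ⟨91, 2, 4, 3, 0,
  2⟩, ⟨94, 1, 6, 2, 0, 2⟩, ⟨97, 0, 8, 1, 0, 2⟩, ⟨47, 0, 8, 2, 0, 2⟩, ⟨95, 0, 9, 1, 0, 1⟩, ⟨101, 2,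
  8, 0, 0, 1⟩, ⟨96, 2, 8, 1, 0, 1⟩, ⟨91, 0, 11, 1, 0, 2⟩, ⟨94, 2, 9, 1, 0, 1⟩, ⟨97, 1, 11, 0, 0,
  2⟩, ⟨47, 1, 11, 1, 0, 2⟩, ⟨92, 2, 10, 1, 0, 2⟩, ⟨95, 1, 12, 0, 0, 1⟩, ⟨93, 1, 13, 0, 0, 1⟩, ⟨91,
  1, 14, 0, 0, 1⟩], [⟨54, 0, 0, 0, 1, 1⟩, ⟨70, 0, 1, 0, 0, 2⟩, ⟨73, 1, 0, 0, 0, 2⟩, ⟨115, 2, 0, 0,
  0, 2⟩, ⟨106, 0, 2, 1, 0, 2⟩, ⟨109, 1, 2, 0, 0, 2⟩, ⟨111, 2, 1, 0, 0, 1⟩, ⟨58, 0, 2, 2, 0, 2⟩,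
  ⟨103, 2, 0, 2, 0, 2⟩, ⟨48, 0, 4, 0, 1, 2⟩, ⟨59, 0, 4, 1, 0, 2⟩, ⟨93, 1, 3, 0, 1, 2⟩, ⟨105, 2, 2,
  1, 0, 1⟩, ⟨107, 1, 4, 0, 0, 2⟩, ⟨63, 2, 4, 0, 0, 2⟩, ⟨94, 0, 3, 3, 0, 1⟩, ⟨97, 2, 1, 3, 0, 1⟩,
  ⟨47, 2, 4, 0, 1, 1⟩, ⟨54, 2, 3, 2, 0, 2⟩, ⟨93, 2, 3, 3, 0, 2⟩, ⟨96, 1, 5, 2, 0, 1⟩, ⟨94, 1, 6,
  2, 0, 2⟩, ⟨100, 0, 9, 0, 0, 2⟩, ⟨47, 0, 8, 2, 0, 1⟩, ⟨92, 1, 7, 2, 0, 1⟩, ⟨101, 2, 8, 0, 0, 1⟩,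
  ⟨48, 2, 7, 2, 0, 1⟩, ⟨96, 2, 8, 1, 0, 2⟩, ⟨91, 0, 11, 1, 0, 2⟩, ⟨97, 1, 11, 0, 0, 1⟩, ⟨47, 1,
  11, 1, 0, 1⟩, ⟨95, 1, 12, 0, 0, 1⟩, ⟨48, 0, 14, 0, 0, 2⟩, ⟨93, 1, 13, 0, 0, 2⟩, ⟨91, 1, 14, 0,
  0, 2⟩, ⟨47, 2, 14, 0, 0, 2⟩], [⟨74, 0, 0, 0, 0, 1⟩, ⟨70, 0, 1, 0, 0, 1⟩, ⟨73, 1, 0, 0, 0, 2⟩,
  ⟨98, 0, 0, 3, 0, 2⟩, ⟨104, 1, 0, 2, 0, 1⟩, ⟨109, 1, 2, 0, 0, 2⟩, ⟨111, 2, 1, 0, 0, 1⟩, ⟨103, 2,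
  0, 2, 0, 2⟩, ⟨59, 0, 4, 1, 0, 1⟩, ⟨105, 2, 2, 1, 0, 1⟩, ⟨63, 2, 4, 0, 0, 1⟩, ⟨94, 0, 3, 3, 0,
  2⟩, ⟨97, 2, 1, 3, 0, 2⟩, ⟨100, 2, 2, 2, 0, 1⟩, ⟨92, 0, 4, 3, 0, 1⟩, ⟨101, 1, 5, 1, 0, 1⟩, ⟨103,
  0, 7, 0, 0, 2⟩, ⟨59, 1, 7, 0, 0, 1⟩, ⟨93, 2, 3, 3, 0, 2⟩, ⟨96, 1, 5, 2, 0, 1⟩, ⟨91, 2, 4, 3, 0,
  2⟩, ⟨94, 1, 6, 2, 0, 1⟩, ⟨97, 0, 8, 1, 0, 1⟩, ⟨92, 1, 7, 2, 0, 1⟩, ⟨95, 0, 9, 1, 0, 2⟩, ⟨101, 2,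
  8, 0, 0, 1⟩, ⟨48, 2, 7, 2, 0, 1⟩, ⟨93, 0, 10, 1, 0, 2⟩, ⟨91, 0, 11, 1, 0, 2⟩, ⟨94, 2, 9, 1, 0,
  1⟩, ⟨97, 1, 11, 0, 0, 2⟩, ⟨47, 1, 11, 1, 0, 1⟩, ⟨92, 2, 10, 1, 0, 2⟩, ⟨95, 1, 12, 0, 0, 2⟩, ⟨48,
  0, 14, 0, 0, 2⟩, ⟨93, 1, 13, 0, 0, 2⟩, ⟨47, 2, 14, 0, 0, 1⟩]]

theorem g290 : (eY eJ).geF 6 74 [(0, 0)] [(3, 3)] [(0, 0)] [(3, 3)] l290 = true := by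
  decide +kernel

theorem m290 : WJ.lfM (eY eJ) 6 72 [(0, 0)] [(3, 3)]
    (fun m => ((WJ.nm (eY eJ) 6 74 [(0, 0)] [(3, 3)] m).cjy eJ 6).ce0 eJ 6) l290 [] = true := by
  decide +kernel

theorem h282 : (eY eJ).htAF 6 72 0 61 = true := by
  decide +kernel

end Vale.Agent.P236TD
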