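import Vale.Agent.P236TD.Univ
import Vale.Agent.P236Z.SS.Val
import Vale.Agent.P236Z.Cat.Gen

/-!
# P236, the Toda cell: homotopy orbits

`orb W` is the left adjoint of the trivial action functor `tv W`; `pi Y : U Y ⟶ orb Y` is the
projection to the orbits.
-/

open CategoryTheory MonoidalCategory Limits Pretriangulated
open Functor.LaxMonoidal Functor.OplaxMonoidal
open Vale.Agent.P251 Vale.Agent.P251.T Vale.Agent.P251.M Vale.Agent.P251.H
open Vale.Agent.P236Z.Cat Vale.Agent.P236Z.SS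

noncomputable section

namespace Vale.Agent.P236TD

variable (W : Tower)

/-- the trivial action -/
abbrev tv : W.T₀.C ⥤ W.T₁.C := W.L₁.tv.F

/-- the norm -/
abbrev Nm : W.T₀.C ⥤ W.T₁.C := W.s₁.N

/-- the restriction of the trivial action -/
def tU (Z : W.T₀.C) : (U W).obj ((tv W).obj Z) ≅ Z := W.s₁.tvU.app Z

variable {W}

@[reassoc] theorem tU_nat {Z Z' : W.T₀.C} (f : Z ⟶ Z') :
    (U W).map ((tv W).map f) ≫ (tU W Z').hom = (tU W Z).hom ≫ f := W.s₁.tvU.hom.naturality f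

theorem tU_unit : ε (U W) ≫ (U W).map (ε (tv W)) ≫ (tU W _).hom = 𝟙 _ :=
  (Category.assoc _ _ _).symm.trans (NatTrans.IsMonoidal.unit (τ := W.s₁.tvU.hom))

@[reassoc] theorem tU_tensor (X Y : W.T₀.C) :
    μ (U W) _ _ ≫ (U W).map (μ (tv W) X Y) ≫ (tU W _).hom = (tU W X).hom ⊗ₘ (tU W Y).hom := by
  simpa [tU] using NatTrans.IsMonoidal.tensor (τ := W.s₁.tvU.hom) X Y

theorem tU_shift (Z : W.T₀.C) : (U W).map (((tv W).commShiftIso (1 : ℤ)).hom.app Z) ≫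
    (cs W _).hom ≫ (tU W Z).hom⟦(1 : ℤ)⟧' = (tU W _).hom := by
  have h := NatTrans.shift_app_comm W.s₁.tvU.hom (1 : ℤ) Z
  rw [Functor.commShiftIso_comp_hom_app, Category.assoc] at h
  exact h.trans ((congrArg ((tU W _).hom ≫ ·)
    (Functor.commShiftIso_id_hom_app W.T₀.C (1 : ℤ) Z)).trans (Category.comp_id _))

theorem γ_tv (Z : W.T₀.C) : W.s₁.γ ((tv W).obj Z) = 𝟙 _ :=
  (congrArg (U W).map (W.L₁.tv_h Z)).trans ((U W).map_id _)

theorem univ_ind (S : W.T₀.C) : Univ (tv W) (shp (tU W S).inv) := fun Z => by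
  refine ⟨fun f g k => ?_, fun y => ⟨W.s₁.un S ≫ (U W).map y ≫ (tU W Z).hom, W.s₁.un_ext ?_⟩⟩
  · have k' := congrArg (fun x => W.s₁.un S ≫ (U W).map x ≫ (tU W Z).hom) k
    simpa only [Functor.map_comp, Category.assoc, un_shp_assoc, tU_nat,
      Iso.inv_hom_id_assoc] using k'
  · rw [← cancel_mono (tU W Z).hom, Functor.map_comp, un_shp_assoc, Category.assoc, tU_nat,
      Iso.inv_hom_id_assoc, Category.assoc]

variable (W)

theorem exists_orb : ∃ F : W.T₁.C ⥤ W.T₀.C, Nonempty (F ⊣ tv W) :=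
  have := locallySmall_self.{0} W.T₁.C
  exists_leftAdjoint (isCpt_adj W.s₁.adj W.T₀.cpt) (isGen_adj W.s₁.adj W.s₁.cons W.T₀.gen)
    (univ_ind _)

/-- the homotopy orbits -/
def orb : W.T₁.C ⥤ W.T₀.C := (exists_orb W).choose

/-- the homotopy orbits are left adjoint to the trivial action -/
def oadj : orb W ⊣ tv W := (exists_orb W).choose_spec.some

instance : (orb W).CommShift ℤ := (oadj W).leftAdjointCommShift ℤ
instance : (oadj W).CommShift ℤ := (oadj W).commShift_of_rightAdjoint ℤ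
instance : (orb W).IsTriangulated := (oadj W).isTriangulated_leftAdjoint
instance : (orb W).Additive := inferInstance

variable {W}

/-- the unit -/
def oun (Y : W.T₁.C) : Y ⟶ (tv W).obj ((orb W).obj Y) := (oadj W).unit.app Y

/-- the map on the orbits -/
def fl {Y : W.T₁.C} {Z : W.T₀.C} (k : Y ⟶ (tv W).obj Z) : (orb W).obj Y ⟶ Z :=
  ((oadj W).homEquiv _ _).symm k

/-- the orbits commute with the suspension -/
def os (Y : W.T₁.C) : (orb W).obj (Y⟦(1 : ℤ)⟧) ≅ ((orb W).obj Y)⟦(1 : ℤ)⟧ :=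
  ((orb W).commShiftIso (1 : ℤ)).app Y

/-- the projection to the orbits -/
def pi (Y : W.T₁.C) : (U W).obj Y ⟶ (orb W).obj Y := (U W).map (oun Y) ≫ (tU W _).hom

@[reassoc] theorem oun_nat {Y Y' : W.T₁.C} (f : Y ⟶ Y') :
    oun Y ≫ (tv W).map ((orb W).map f) = f ≫ oun Y' := ((oadj W).unit.naturality f).symm

@[reassoc] theorem oun_fl {Y : W.T₁.C} {Z : W.T₀.C} (k : Y ⟶ (tv W).obj Z) :
    oun Y ≫ (tv W).map (fl k) = k := ((oadj W).homEquiv _ _).apply_symm_apply k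

theorem orb_ext {Y : W.T₁.C} {Z : W.T₀.C} {f g : (orb W).obj Y ⟶ Z}
    (h : oun Y ≫ (tv W).map f = oun Y ≫ (tv W).map g) : f = g :=
  ((oadj W).homEquiv _ _).injective h

@[reassoc] theorem map_fl {Y Y' : W.T₁.C} {Z : W.T₀.C} (f : Y' ⟶ Y) (k : Y ⟶ (tv W).obj Z) :
    (orb W).map f ≫ fl k = fl (f ≫ k) :=
  orb_ext (by rw [Functor.map_comp, oun_nat_assoc, oun_fl, oun_fl])

@[reassoc] theorem fl_comp {Y : W.T₁.C} {Z Z' : W.T₀.C} (k : Y ⟶ (tv W).obj Z) (g : Z ⟶ Z') :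
    fl k ≫ g = fl (k ≫ (tv W).map g) :=
  orb_ext (by rw [Functor.map_comp, oun_fl_assoc, oun_fl])

theorem fl_add {Y : W.T₁.C} {Z : W.T₀.C} (k k' : Y ⟶ (tv W).obj Z) :
    fl (k + k') = fl k + fl k' :=
  orb_ext (by rw [Functor.map_add, Preadditive.comp_add, oun_fl, oun_fl, oun_fl])

theorem fl_zero {Y : W.T₁.C} {Z : W.T₀.C} : fl (0 : Y ⟶ (tv W).obj Z) = 0 :=
  orb_ext (by rw [oun_fl, Functor.map_zero, comp_zero])

theorem fl_oun (Y : W.T₁.C) : fl (oun Y) = 𝟙 _ :=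
  orb_ext (by rw [oun_fl, CategoryTheory.Functor.map_id, Category.comp_id])

@[reassoc] theorem pi_nat {Y Y' : W.T₁.C} (f : Y ⟶ Y') :
    pi Y ≫ (orb W).map f = (U W).map f ≫ pi Y' := by
  rw [pi, pi, Category.assoc, ← tU_nat, ← Functor.map_comp_assoc, oun_nat, Functor.map_comp_assoc]

@[reassoc] theorem pi_fl {Y : W.T₁.C} {Z : W.T₀.C} (k : Y ⟶ (tv W).obj Z) :
    pi Y ≫ fl k = (U W).map k ≫ (tU W Z).hom := by
  rw [pi, Category.assoc, ← tU_nat, ← Functor.map_comp_assoc, oun_fl]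

@[reassoc] theorem γ_pi (Y : W.T₁.C) : W.s₁.γ Y ≫ pi Y = pi Y := by
  rw [pi, ← W.s₁.γ_nat_assoc, γ_tv, Category.id_comp]

theorem orb_h (Y : W.T₁.C) : (orb W).map (W.L₁.t.h Y).hom = 𝟙 _ :=
  orb_ext (by
    rw [oun_nat, ← W.L₁.t.nat, W.L₁.tv_h, CategoryTheory.Functor.map_id])

@[reassoc] theorem os_nat {Y Y' : W.T₁.C} (f : Y ⟶ Y') :
    (orb W).map (f⟦(1 : ℤ)⟧') ≫ (os Y').hom = (os Y).hom ≫ ((orb W).map f)⟦(1 : ℤ)⟧' :=
  ((orb W).commShiftIso (1 : ℤ)).hom.naturality f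

@[reassoc] theorem pi_shift (Y : W.T₁.C) :
    pi (Y⟦(1 : ℤ)⟧) ≫ (os Y).hom = (cs W Y).hom ≫ (pi Y)⟦(1 : ℤ)⟧' := by
  have h : (oun Y)⟦(1 : ℤ)⟧' = oun (Y⟦(1 : ℤ)⟧) ≫ (tv W).map (os Y).hom ≫
      ((tv W).commShiftIso (1 : ℤ)).hom.app _ := (oadj W).shift_unit_app 1 Y
  rw [pi, pi, Functor.map_comp, ← cs_nat_assoc, h, Functor.map_comp, Functor.map_comp,
    Category.assoc, Category.assoc, Category.assoc, tU_shift, tU_nat]

theorem dist_orb {X Y Z : W.T₁.C} {f : X ⟶ Y} {g : Y ⟶ Z} {h : Z ⟶ X⟦(1 : ℤ)⟧}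
    (D : Dist f g h) : Dist ((orb W).map f) ((orb W).map g) ((orb W).map h ≫ (os X).hom) :=
  (orb W).map_distinguished _ D

/-- the orbits of an induced object -/
def fo (S : W.T₀.C) : (orb W).obj (W.s₁.ind.obj S) ⟶ S := fl (shp (tU W S).inv)

@[reassoc] theorem un_pi_fo (S : W.T₀.C) : W.s₁.un S ≫ pi _ ≫ fo S = 𝟙 S := by
  rw [fo, pi_fl, un_shp_assoc, Iso.inv_hom_id]

theorem fo_un_pi (S : W.T₀.C) : fo S ≫ W.s₁.un S ≫ pi _ = 𝟙 _ := by
  rw [fo, fl_comp, ← fl_oun]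
  refine congrArg fl (W.s₁.un_ext ?_)
  rw [Functor.map_comp, un_shp_assoc, ← cancel_mono (tU W _).hom, Category.assoc, tU_nat,
    Iso.inv_hom_id_assoc, Category.assoc, pi]

instance (S : W.T₀.C) : IsIso (fo S) := ⟨_, fo_un_pi S, by rw [Category.assoc, un_pi_fo]⟩

theorem orb_shp {S : W.T₀.C} {Y : W.T₁.C} (g : S ⟶ (U W).obj Y) :
    (orb W).map (shp g) = fo S ≫ g ≫ pi Y := by
  rw [← Category.id_comp ((orb W).map _), ← fo_un_pi, Category.assoc, Category.assoc, pi_nat,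
    un_shp_assoc]

@[reassoc] theorem fo_nat {S S' : W.T₀.C} (g : S ⟶ S') :
    (orb W).map (W.s₁.ind.map g) ≫ fo S' = fo S ≫ g := by
  rw [← Category.id_comp ((orb W).map _ ≫ _), ← fo_un_pi, Category.assoc, Category.assoc,
    pi_nat_assoc, W.s₁.un_nat_assoc, un_pi_fo, Category.comp_id]

/-- the boundary on the orbits -/
def bd {S : W.T₀.C} {Y : W.T₁.C} (b : Y ⟶ (W.s₁.ind.obj S)⟦(1 : ℤ)⟧) :
    (orb W).obj Y ⟶ S⟦(1 : ℤ)⟧ := (orb W).map b ≫ (os _).hom ≫ (fo S)⟦(1 : ℤ)⟧'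

theorem dist_cell {S : W.T₀.C} {Y Y' : W.T₁.C} {g : S ⟶ (U W).obj Y} {i : Y ⟶ Y'}
    {b : Y' ⟶ (W.s₁.ind.obj S)⟦(1 : ℤ)⟧} (D : Dist (shp g) i b) :
    Dist (g ≫ pi Y) ((orb W).map i) (bd b) := by
  have h := P236Z.Tr.dist_iso (dist_orb D) (asIso (fo S)).symm (Iso.refl _) (Iso.refl _)
    (f' := g ≫ pi Y) (g' := (orb W).map i) (by simp [orb_shp]) (by simp)
  simpa [bd] using h

theorem dd_pi (m : ℤ) (Y : W.T₁.C) :
    dd m Y ≫ pi Y = (if Even m then (0 : ℤ) else 3) • pi Y := by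
  unfold dd
  split_ifs
  · rw [Preadditive.sub_comp, γ_pi, Category.id_comp, sub_self, zero_smul]
  · simp only [Preadditive.add_comp, Category.assoc, γ_pi, Category.id_comp]
    abel

theorem pi_bd {S S' : W.T₀.C} {Y : W.T₁.C} {g : S' ⟶ (U W).obj Y}
    {b : Y ⟶ (W.s₁.ind.obj S)⟦(1 : ℤ)⟧} {κ : S' ⟶ S⟦(1 : ℤ)⟧} {m : ℤ}
    (h : g ≫ (U W).map b ≫ (cs W _).hom = κ ≫ (W.s₁.un _ ≫ dd m _)⟦(1 : ℤ)⟧') :
    (g ≫ pi Y) ≫ bd b = (if Even m then (0 : ℤ) else 3) • κ := by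
  rw [bd, Category.assoc, pi_nat_assoc, pi_shift_assoc, reassoc_of% h, ← Functor.map_comp,
    ← Functor.map_comp, Category.assoc, reassoc_of% dd_pi, Preadditive.zsmul_comp,
    Preadditive.comp_zsmul, un_pi_fo, Functor.map_zsmul, CategoryTheory.Functor.map_id,
    Preadditive.comp_zsmul, Category.comp_id]

end Vale.Agent.P236TD
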