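import Vale.Agent.P236Z.Top.GeoN
import Vale.Agent.P251.I.CofTriangle

/-!
# P236, the Toda cell: mapping cones of spaces with an action, and the map from the cone of a norm
to the norm of the cone
-/

open CategoryTheory MonoidalCategory Limits
open Functor.LaxMonoidal Functor.OplaxMonoidal
open Vale.Agent.P251 Vale.Agent.P251.G Vale.Agent.P251.I
open Vale.Agent.P236Z Vale.Agent.P236Z.Cat

noncomputable section

namespace Vale.Agent.P236TD

/-- the norm of spaces -/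
abbrev Nk : FCat ⥤ K1 := Rt.N (Tw.id FCat)

/-- the half line -/
abbrev HHF : FCat := ⟨LC.HH, LC.FC.halfLine⟩

/-- the underlying map -/
abbrev un1 {A B : K1} (f : A ⟶ B) : A.obj.obj ⟶ B.obj.obj := f.hom.hom

theorem k1_ext {A B : K1} {f g : A ⟶ B} (h : un1 f = un1 g) : f = g :=
  Rt.hom_ext (ObjectProperty.hom_ext _ h)

/-- an equivariant map -/
def mk1 {A B : K1} (f : A.obj.obj ⟶ B.obj.obj) (h : A.γ.hom ≫ f = f ≫ B.γ.hom) : A ⟶ B :=
  Rt.homMk (FCat.hom f) (ObjectProperty.hom_ext _ h)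

theorem un1_comm {A B : K1} (f : A ⟶ B) : A.γ.hom ≫ un1 f = un1 f ≫ B.γ.hom :=
  congrArg (·.hom) f.comm

theorem γ_cube1 (A : K1) : A.γ.hom ≫ A.γ.hom ≫ A.γ.hom = 𝟙 _ := congrArg (·.hom) A.cube

/-- the end point of the half line -/
def pt0 : 𝟙_ FCat ⟶ HHF := FCat.hom (LC.point (X := LC.HH) (0 : NNReal))

/-- the collapse of the half line -/
def clF : HHF ⟶ RRF := FCat.hom LC.collHH

/-- the base of the cone -/
def base (A : K1) : A ⟶ A ⊗ v1.obj HHF := (ρ_ A).inv ≫ A ◁ (ε v1 ≫ v1.map pt0)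

/-- the collapse of the base -/
def coll (A : K1) : A ⊗ v1.obj HHF ⟶ A ⊗ v1.obj RRF := A ◁ v1.map clF

theorem un_base (A : K1) : un1 (base A) = LC.coneBase A.obj.obj :=
  LC.hom_ext fun _ => rfl

theorem un_coll (A : K1) : un1 (coll A) = A.obj.obj ◁ LC.collHH := rfl

theorem cof_base (A : K1) : IsCof (Rt.U _ ⋙ 𝟭 _) (base A) (coll A) := by
  refine ⟨?_, ?_⟩
  · change LC.Cofib (un1 (base A))
    rw [un_base]
    exact LC.cofib_coneBase _
  · change IsPushout (un1 (base A)) 0 (un1 (coll A)) 0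
    rw [un_base]
    exact LC.isPushout_collHH LC.isZero_empty 0 0

@[reassoc] theorem base_nat {A B : K1} (f : A ⟶ B) : base A ≫ f ▷ _ = f ≫ base B := by
  rw [base, base, Category.assoc, whisker_exchange, rightUnitor_inv_naturality_assoc]

@[reassoc] theorem coll_nat {A B : K1} (f : A ⟶ B) : coll A ≫ f ▷ _ = f ▷ _ ≫ coll B := by
  rw [coll, coll, whisker_exchange]

theorem cube_aux {X Y : LC} {f : X ⟶ Y} {a : X ⟶ X} {b : Y ⟶ Y} (w : f ≫ b = a ≫ f)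
    (ha : a ≫ a ≫ a = 𝟙 _) (hb : b ≫ b ≫ b = 𝟙 _) :
    LC.coneMap a b w ≫ LC.coneMap a b w ≫ LC.coneMap a b w = 𝟙 _ := by
  refine LC.cone_hom_ext _ ?_ ?_
  · rw [LC.coneInl_map_assoc, LC.coneInl_map_assoc, LC.coneInl_map, ← comp_whiskerRight_assoc,
      ← comp_whiskerRight_assoc, Category.assoc, ha, id_whiskerRight, Category.id_comp,
      Category.comp_id]
  · rw [LC.coneInr_map_assoc, LC.coneInr_map_assoc, LC.coneInr_map, reassoc_of% hb,
      Category.comp_id]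

theorem desc_aux {X Y Z : LC} {f : X ⟶ Y} {a : X ⟶ X} {b : Y ⟶ Y} (w : f ≫ b = a ≫ f)
    {c : Z ⟶ Z} {d : LC.cone f ⟶ Z} {p : X ⊗ LC.HH ⟶ Z} {q : Y ⟶ Z} (h1 : LC.coneInl f ≫ d = p)
    (h2 : LC.coneInr f ≫ d = q) (hp : (a ⊗ₘ 𝟙 _) ≫ p = p ≫ c) (hq : b ≫ q = q ≫ c) :
    LC.coneMap a b w ≫ d = d ≫ c := by
  refine LC.cone_hom_ext _ ?_ ?_
  · rw [LC.coneInl_map_assoc, reassoc_of% h1, h1, ← hp, tensorHom_id]
  · rw [LC.coneInr_map_assoc, reassoc_of% h2, h2, hq]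

variable {A B : K1} (g : A ⟶ B)

/-- the mapping cone -/
def coneK : K1 :=
  ⟨coneF g.hom, FCat.hom (LC.coneMap A.γ.hom B.γ.hom (un1_comm g).symm),
    ObjectProperty.hom_ext _ (cube_aux (un1_comm g).symm (γ_cube1 A) (γ_cube1 B))⟩

/-- the cylinder part -/
def inlK : A ⊗ v1.obj HHF ⟶ coneK g := mk1 (LC.coneInl (un1 g)) (by
  refine Eq.trans ?_ (LC.coneInl_map A.γ.hom B.γ.hom (un1_comm g).symm).symm
  rw [← tensorHom_id]
  rfl)

/-- the inclusion of the target -/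
def inrK : B ⟶ coneK g := mk1 (LC.coneInr (un1 g))
  (LC.coneInr_map A.γ.hom B.γ.hom (un1_comm g).symm).symm

/-- the collapse of the target -/
def connK : coneK g ⟶ A ⊗ v1.obj RRF := mk1 (LC.coneConn (un1 g)) (by
  refine (LC.coneMap_conn A.γ.hom B.γ.hom (un1_comm g).symm).trans ?_
  rw [← tensorHom_id]
  rfl)

theorem cof_inr : IsCof (Rt.U _ ⋙ 𝟭 _) (inrK g) (connK g) :=
  ⟨LC.cofib_coneInr _, LC.isPushout_coneConn _ LC.isZero_empty 0 0⟩

theorem base_inl : base A ≫ inlK g = g ≫ inrK g := k1_ext (by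
  change un1 (base A) ≫ _ = _
  rw [un_base]
  exact LC.cone_w _)

theorem inl_conn : inlK g ≫ connK g = coll A := k1_ext (LC.coneInl_conn _)

theorem exists_desc {Y : K1} (a : A ⊗ v1.obj HHF ⟶ Y) (b : B ⟶ Y) (h : base A ≫ a = g ≫ b) :
    ∃ c : coneK g ⟶ Y, inlK g ≫ c = a ∧ inrK g ≫ c = b := by
  have h' : LC.coneBase A.obj.obj ≫ un1 a = un1 g ≫ un1 b := by
    rw [← un_base]
    exact congrArg un1 h
  have h1 := (LC.isPushout_cone (un1 g)).inl_desc _ _ h'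
  have h2 := (LC.isPushout_cone (un1 g)).inr_desc _ _ h'
  exact ⟨mk1 ((LC.isPushout_cone (un1 g)).desc (un1 a) (un1 b) h')
    (desc_aux (un1_comm g).symm h1 h2 (un1_comm a) (un1_comm b)), k1_ext h1, k1_ext h2⟩

/-- the diagonal -/
def dk (X : FCat) : v1.obj X ⟶ Nk.obj X := dgK (𝟭 FCat) hv0 X

@[reassoc] theorem dk_nat {X Y : FCat} (f : X ⟶ Y) : v1.map f ≫ dk Y = dk X ≫ Nk.map f :=
  (GeoN.dgT (𝟭 FCat) hv0).naturality f

theorem ε_dk : ε v1 ≫ dk (𝟙_ FCat) = ε Nk := k1_ext (LC.hom_ext fun _ => rfl)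

/-- the diagonal in the second variable -/
def Zk (A X : FCat) : Nk.obj A ⊗ v1.obj X ⟶ Nk.obj (A ⊗ X) := Nk.obj A ◁ dk X ≫ μ Nk A X

@[reassoc] theorem Zk_nat_l {A A' : FCat} (f : A ⟶ A') (X : FCat) :
    Zk A X ≫ Nk.map (f ▷ X) = Nk.map f ▷ _ ≫ Zk A' X := by
  rw [Zk, Zk, Category.assoc, ← μ_natural_left, whisker_exchange_assoc]

@[reassoc] theorem Zk_nat_r (A : FCat) {X X' : FCat} (f : X ⟶ X') :
    Zk A X ≫ Nk.map (A ◁ f) = _ ◁ v1.map f ≫ Zk A X' := by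
  rw [Zk, Zk, Category.assoc, ← μ_natural_right, ← MonoidalCategory.whiskerLeft_comp_assoc,
    ← MonoidalCategory.whiskerLeft_comp_assoc, dk_nat]

theorem base_Zk (A : FCat) : base (Nk.obj A) ≫ Zk A HHF = Nk.map ((ρ_ A).inv ≫ A ◁ pt0) := by
  rw [base, Category.assoc, MonoidalCategory.whiskerLeft_comp, Category.assoc, ← Zk_nat_r, Zk,
    Category.assoc, ← MonoidalCategory.whiskerLeft_comp_assoc, ε_dk, Functor.map_comp,
    ← right_unitality_inv_assoc]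

/-- The map from the cone of the norm to the norm of the cone. -/
theorem exists_phi {A B : FCat} (f : A ⟶ B) : ∃ φ : coneK (Nk.map f) ⟶ Nk.obj (coneF f),
    inrK _ ≫ φ = Nk.map (coneInrF f) ∧ φ ≫ Nk.map (coneConnF f) = connK _ ≫ Zk A RRF := by
  let l : A ⊗ HHF ⟶ coneF f := FCat.hom (LC.coneInl f.hom)
  have h0 : ((ρ_ A).inv ≫ A ◁ pt0) ≫ l = f ≫ coneInrF f :=
    ObjectProperty.hom_ext _ (LC.cone_w f.hom)
  have h1 : l ≫ coneConnF f = A ◁ clF := ObjectProperty.hom_ext _ (LC.coneInl_conn f.hom)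
  obtain ⟨φ, h2, h3⟩ := exists_desc (Nk.map f) (Zk A HHF ≫ Nk.map l) (Nk.map (coneInrF f)) (by
    rw [← Category.assoc, base_Zk, ← Functor.map_comp, h0, Functor.map_comp])
  refine ⟨φ, h3, k1_ext (LC.cone_hom_ext _ ?_ ?_)⟩
  · change un1 (inlK _ ≫ φ ≫ _) = un1 (inlK _ ≫ connK _ ≫ _)
    rw [reassoc_of% h2, ← Functor.map_comp, h1, Zk_nat_r, reassoc_of% inl_conn, coll]
  · refine Eq.trans ?_ (LC.coneInr_conn_assoc (un1 (Nk.map f)) (un1 (Zk A RRF))).symm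
    refine Eq.trans ?_ zero_comp.symm
    change un1 (inrK _ ≫ φ ≫ _) = _
    rw [reassoc_of% h3, ← Functor.map_comp]
    change (LC.coneInr f.hom ≫ LC.coneConn f.hom) ⊗ₘ _ = 0
    have h4 : ∀ X Y Z : LC, (0 : X ⟶ Y) ▷ Z = 0 := fun X Y Z => LC.tensor_ext fun x y => by
      rw [LC.app_whiskerRight_smash, LC.app_zero, LC.app_zero]
      rfl
    rw [LC.coneInr_conn, MonoidalCategory.tensorHom_def, h4, zero_comp]

end Vale.Agent.P236TD
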