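import Vale.Agent.P236TD.Cell
import Vale.Agent.P236TD.Spc
import Vale.Agent.P236Z.Tr.Real

/-!
# P236, the Toda cell: the map from the cone of a norm to the norm of the cone
-/

open CategoryTheory MonoidalCategory Limits Pretriangulated
open Functor.LaxMonoidal Functor.OplaxMonoidal
open Vale.Agent.P251 Vale.Agent.P251.T Vale.Agent.P251.M Vale.Agent.P251.H Vale.Agent.P251.I
open Vale.Agent.P236Z Vale.Agent.P236Z.Cat Vale.Agent.P236Z.SS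

noncomputable section

namespace Vale.Agent.P236TD

variable {W : Tower}

theorem Eu.of_eq {V V' V₀ V₀' : W.T₁.C} {ζ : V ⟶ V'} {ζ' : V₀ ⟶ V₀'} (h : Eu ζ) (a : V₀ ⟶ V)
    [IsIso a] (b : V₀' ⟶ V') [IsIso b] (k : ζ' ≫ b = a ≫ ζ) : Eu ζ' := by
  obtain ⟨e, he⟩ := h
  refine ⟨asIso b ≪≫ e ≪≫ whiskerRightIso (asIso a).symm _, ?_⟩
  rw [Iso.trans_hom, Iso.trans_hom, asIso_hom, reassoc_of% k, reassoc_of% he, whiskerRightIso_hom,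
    whisker_exchange, ← rightUnitor_inv_naturality_assoc, Iso.symm_hom, asIso_inv,
    IsIso.hom_inv_id_assoc]

theorem Eu.left {V V' : W.T₁.C} {ζ : V ⟶ V'} (h : Eu ζ) (Y : W.T₁.C) : Eu (Y ◁ ζ) := by
  obtain ⟨e, he⟩ := h
  refine ⟨whiskerLeftIso Y e ≪≫ (α_ _ _ _).symm, ?_⟩
  rw [Iso.trans_hom, whiskerLeftIso_hom, ← MonoidalCategory.whiskerLeft_comp_assoc, he]
  simp

theorem Eu.right {V V' : W.T₁.C} {ζ : V ⟶ V'} (h : Eu ζ) (Y : W.T₁.C) : Eu (ζ ▷ Y) :=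
  (h.left Y).of_eq (β_ _ _).hom (β_ _ _).hom (BraidedCategory.braiding_naturality_left _ _)

theorem Eu.of_right {V V' T T' : W.T₁.C} (e : T ⊗ T' ≅ 𝟙_ _) {ζ : V ⟶ V'} (h : Eu (ζ ▷ T)) :
    Eu ζ :=
  (h.right T').of_eq ((ρ_ _).inv ≫ _ ◁ e.inv ≫ (α_ _ _ _).inv)
    ((ρ_ _).inv ≫ _ ◁ e.inv ≫ (α_ _ _ _).inv) (by
      rw [rightUnitor_inv_naturality_assoc, ← whisker_exchange_assoc,
        associator_inv_naturality_left, Category.assoc, Category.assoc])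

theorem Eu.shift {V V' : W.T₁.C} {ζ : V ⟶ V'} (h : Eu ζ) : Eu (ζ⟦(1 : ℤ)⟧') :=
  (h.right _).of_eq (TensorTriangulated.e V).inv (TensorTriangulated.e V').inv (by
    rw [Iso.comp_inv_eq, Category.assoc, TensorTriangulated.e_naturality, Iso.inv_hom_id_assoc])

theorem Eu.neg {V V' : W.T₁.C} {ζ : V ⟶ V'} (h : Eu ζ) : Eu (-ζ) :=
  have : IsIso (-𝟙 V') := ⟨-𝟙 _, by simp, by simp⟩
  h.of_eq (𝟙 _) (-𝟙 _) (by simp)

theorem eu_std (V : W.T₁.C) : Eu ((ρ_ V).inv ≫ V ◁ W.s₁.ar) := ⟨Iso.refl _, Category.comp_id _⟩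

theorem Eu.iso {V V' V'' : W.T₁.C} {ζ : V ⟶ V'} {ζ' : V ⟶ V''} (h : Eu ζ) (h' : Eu ζ') :
    ∃ e : V' ≅ V'', ζ ≫ e.hom = ζ' := by
  obtain ⟨e, he⟩ := h
  obtain ⟨e', he'⟩ := h'
  exact ⟨e ≪≫ e'.symm, by rw [Iso.trans_hom, reassoc_of% he, ← reassoc_of% he']; simp⟩

variable (W)

/-- the suspension spectra of spaces with an action -/
abbrev Jk : K1 ⥤ W.T₁.C := W.L₁.J

/-- the norm of a suspension spectrum -/
def jn (X : FCat) : (Nm W).obj (W.F.S.obj X) ≅ (Jk W).obj (Nk.obj X) := W.s₁.JN.app X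

/-- the suspension -/
def sg (A : K1) : (Jk W).obj (A ⊗ v1.obj RRF) ⟶ ((Jk W).obj A)⟦(1 : ℤ)⟧ := W.L₁.cδ (cof_base A)

@[reassoc] theorem jn_nat {X Y : FCat} (f : X ⟶ Y) :
    (Nm W).map (W.F.S.map f) ≫ (jn W Y).hom = (jn W X).hom ≫ (Jk W).map (Nk.map f) :=
  W.s₁.JN.hom.naturality f

@[reassoc] theorem jn_nat' {X Y : FCat} (f : X ⟶ Y) :
    (Jk W).map (Nk.map f) ≫ (jn W Y).inv = (jn W X).inv ≫ (Nm W).map (W.F.S.map f) :=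
  W.s₁.JN.inv.naturality f

instance (A : K1) : IsIso (sg W A) :=
  (Triangle.isZero₂_iff_isIso₃ _ (W.L₁.dist (cof_base A))).1 (W.s₁.cons _
    ((W.F.isZero_of_contr (X := (A ⊗ v1.obj HHF).obj) (G.LC.contr_tensor_HH _)).of_iso
      (W.s₁.JU.app _)))

@[reassoc] theorem sg_nat {A B : K1} (f : A ⟶ B) :
    sg W A ≫ ((Jk W).map f)⟦(1 : ℤ)⟧' = (Jk W).map (f ▷ _) ≫ sg W B :=
  W.L₁.cδ_nat _ _ f (f ▷ _) (f ▷ _) (base_nat f) (coll_nat f)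

theorem dist_coneK {A B : K1} (g : A ⟶ B) :
    Dist ((Jk W).map g) ((Jk W).map (inrK g)) (-((Jk W).map (connK g) ≫ sg W A)) := by
  have h : sg W A ≫ ((Jk W).map g)⟦(1 : ℤ)⟧' = (Jk W).map (𝟙 _) ≫ W.L₁.cδ (cof_inr g) :=
    W.L₁.cδ_nat _ _ g (inlK g) (𝟙 _) (base_inl g) ((Category.comp_id _).trans (inl_conn g).symm)
  have D : Dist ((Jk W).map (inrK g)) ((Jk W).map (connK g)) _ := W.L₁.dist (cof_inr g)
  have : IsIso (-inv (sg W A)) := ⟨-sg W A, by simp, by simp⟩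
  rw [CategoryTheory.Functor.map_id, Category.id_comp] at h
  have D' : Dist ((Jk W).map (inrK g)) (-((Jk W).map (connK g) ≫ sg W A))
      (-((Jk W).map g)⟦(1 : ℤ)⟧') := D.of_iso₃ (-inv (sg W A)) (by simp) (by
    rw [← h, Preadditive.neg_comp, IsIso.inv_hom_id_assoc])
  exact (rotate_distinguished_triangle _).2 D'

/-- the diagonal in the suspension coordinate -/
def zt (A : FCat) : ((Nm W).obj (W.F.S.obj A))⟦(1 : ℤ)⟧ ⟶ (Nm W).obj ((W.F.S.obj A)⟦(1 : ℤ)⟧) :=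
  -((jn W A).hom⟦(1 : ℤ)⟧' ≫ inv (sg W _) ≫ (Jk W).map (Zk A RRF) ≫ (jn W _).inv ≫
    (Nm W).map (W.F.suspIso A).hom)

theorem zt_nat {A B : FCat} (f : A ⟶ B) : zt W A ≫ (Nm W).map ((W.F.S.map f)⟦(1 : ℤ)⟧') =
    ((Nm W).map (W.F.S.map f))⟦(1 : ℤ)⟧' ≫ zt W B := by
  have h : inv (sg W _) ≫ (Jk W).map (Nk.map f ▷ _) =
      ((Jk W).map (Nk.map f))⟦(1 : ℤ)⟧' ≫ inv (sg W _) := by
    rw [IsIso.inv_comp_eq, sg_nat_assoc, IsIso.hom_inv_id, Category.comp_id]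
  simp only [zt, Preadditive.neg_comp, Preadditive.comp_neg, Category.assoc]
  rw [← Functor.map_comp (Nm W), ← W.F.suspIso_naturality, Functor.map_comp, ← jn_nat'_assoc,
    ← Functor.map_comp_assoc (Jk W), Zk_nat_l, Functor.map_comp_assoc, reassoc_of% h,
    ← Functor.map_comp_assoc, ← jn_nat, Functor.map_comp_assoc]

theorem eu_zt (hg : W.Geo) (A : FCat) : Eu (zt W A) := by
  have h1 : Eu (W.s₁.dg RRF) := hg.n1
  have h2 : Eu ((Jk W).map (dk RRF)) := h1.of_eq (W.L₁.Jtv.hom.app RRF)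
    (W.s₁.JN.inv.app _ ≫ W.s₁.N.map ((lvl0 W.c).Jtv.hom.app RRF))
    (Iso.hom_inv_id_app_assoc W.L₁.Jtv RRF _).symm
  have h3 : Eu ((Jk W).map (Zk A RRF)) := (h2.left ((Jk W).obj (Nk.obj A))).of_eq
    (δ (Jk W) _ _) (inv ((Jk W).map (μ Nk A RRF)) ≫ δ (Jk W) _ _) (by
      rw [Zk, Functor.map_comp, Category.assoc, IsIso.hom_inv_id_assoc, δ_natural_right])
  refine Eu.neg (h3.of_eq ((jn W A).hom⟦(1 : ℤ)⟧' ≫ inv (sg W _))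
    (inv ((jn W _).inv ≫ (Nm W).map (W.F.suspIso A).hom)) ?_)
  rw [IsIso.comp_inv_eq]
  simp only [Category.assoc]

variable {W}

/-- the map from the cone of the norm to the norm of the cone -/
def Phi {A B A₁ : W.T₀.C} (f : A ⟶ B) (p : A ⟶ A₁) : Prop :=
  ∀ (C : W.T₀.C) (c : B ⟶ C) (q : C ⟶ A⟦(1 : ℤ)⟧), Dist f c q →
    ∀ (Z : W.T₁.C) (c' : (Nm W).obj B ⟶ Z) (q' : Z ⟶ ((Nm W).obj A)⟦(1 : ℤ)⟧),
      Dist ((Nm W).map f) c' q' →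
      ∃ (φ : Z ⟶ (Nm W).obj C) (ζ : ((Nm W).obj A)⟦(1 : ℤ)⟧ ⟶ (Nm W).obj (A⟦(1 : ℤ)⟧))
        (ζ₁ : ((Nm W).obj A₁)⟦(1 : ℤ)⟧ ⟶ (Nm W).obj (A₁⟦(1 : ℤ)⟧)),
        c' ≫ φ = (Nm W).map c ∧ φ ≫ (Nm W).map q = q' ≫ ζ ∧
        ζ ≫ (Nm W).map (p⟦(1 : ℤ)⟧') = ((Nm W).map p)⟦(1 : ℤ)⟧' ≫ ζ₁ ∧ Eu ζ₁

/-- `f` is induced by a map of spaces -/
def R1 {A B : W.T₀.C} {X Y : FCat} (a : A ≅ W.F.S.obj X) (b : B ≅ W.F.S.obj Y) (f : A ⟶ B) : Prop :=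
  ∃ g : X ⟶ Y, f ≫ b.hom = a.hom ≫ W.F.S.map g

theorem phi_space (hg : W.Geo) {A B A₁ : W.T₀.C} {X Y X₁ : FCat} {a : A ≅ W.F.S.obj X}
    {b : B ≅ W.F.S.obj Y} {a₁ : A₁ ≅ W.F.S.obj X₁} {f : A ⟶ B} {p : A ⟶ A₁} (hf : R1 a b f)
    (hp : R1 a a₁ p) : Phi f p := by
  obtain ⟨g, hf⟩ := hf
  obtain ⟨r, hp⟩ := hp
  intro C c q D Z c' q' D'
  have D₀ : Dist _ _ _ := W.F.cone_distinguished g
  obtain ⟨u, u1, u2⟩ := D₀.map₃ D a.inv b.inv (by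
    rw [Iso.comp_inv_eq, Category.assoc, hf, Iso.inv_hom_id_assoc])
  obtain ⟨v, v1, v2⟩ := D'.map₃ (dist_coneK W (Nk.map g)) ((Nm W).map a.hom ≫ (jn W X).hom)
    ((Nm W).map b.hom ≫ (jn W Y).hom) (by
      rw [← Functor.map_comp_assoc, hf, Functor.map_comp_assoc, jn_nat, Category.assoc])
  obtain ⟨φ, φ1, φ2⟩ := exists_phi g
  refine ⟨v ≫ (Jk W).map φ ≫ (jn W _).inv ≫ (Nm W).map u,
    ((Nm W).map a.hom)⟦(1 : ℤ)⟧' ≫ zt W X ≫ (Nm W).map (a.inv⟦(1 : ℤ)⟧'),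
    ((Nm W).map a₁.hom)⟦(1 : ℤ)⟧' ≫ zt W X₁ ≫ (Nm W).map (a₁.inv⟦(1 : ℤ)⟧'), ?_, ?_, ?_,
    (eu_zt W hg X₁).of_eq (((Nm W).map a₁.hom)⟦(1 : ℤ)⟧') (inv ((Nm W).map (a₁.inv⟦(1 : ℤ)⟧')))
      (by simp only [Category.assoc, IsIso.hom_inv_id, Category.comp_id])⟩
  · rw [reassoc_of% v1, ← Functor.map_comp_assoc (Jk W), φ1, jn_nat'_assoc, Iso.hom_inv_id_assoc,
      ← Functor.map_comp, ← Functor.map_comp, u1, Iso.hom_inv_id_assoc]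
  · have h : v ≫ (Jk W).map (connK _) =
        -(q' ≫ ((Nm W).map a.hom ≫ (jn W X).hom)⟦(1 : ℤ)⟧' ≫ inv (sg W _)) := by
      rw [reassoc_of% v2]
      simp
    simp only [Category.assoc]
    rw [← Functor.map_comp (Nm W), ← u2, SpaceFunctor.coneδ, Category.assoc, Functor.map_comp,
      ← jn_nat'_assoc, ← Functor.map_comp_assoc (Jk W), φ2, Functor.map_comp_assoc, reassoc_of% h,
      zt]
    simp only [Functor.map_comp, Preadditive.neg_comp, Preadditive.comp_neg, Category.assoc]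
  · have h : a.inv ≫ p = W.F.S.map r ≫ a₁.inv := by
      rw [Iso.inv_comp_eq, ← reassoc_of% hp, Iso.hom_inv_id, Category.comp_id]
    simp only [Category.assoc]
    rw [← Functor.map_comp (Nm W), ← Functor.map_comp, h, Functor.map_comp, Functor.map_comp,
      reassoc_of% zt_nat, ← Functor.map_comp_assoc, ← Functor.map_comp_assoc (shiftFunctor _ _),
      ← Functor.map_comp, ← Functor.map_comp (Nm W) p, hp]

end Vale.Agent.P236TD
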