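import Vale.Agent.P236TD.Phi

/-!
# P236, the Toda cell: the map from the cone of a norm to the norm of the cone, finite objects
-/

open CategoryTheory MonoidalCategory Limits Pretriangulated
open Functor.LaxMonoidal Functor.OplaxMonoidal
open Vale.Agent.P251 Vale.Agent.P251.T Vale.Agent.P251.M Vale.Agent.P251.H Vale.Agent.P251.I
open Vale.Agent.P236Z Vale.Agent.P236Z.Cat Vale.Agent.P236Z.SS

noncomputable section

namespace Vale.Agent.P236TD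

theorem equiv_right {D : Type 1} [Category.{0} D] [MonoidalCategory D] [SymmetricCategory D]
    {A Y : D} (e : A ⊗ Y ≅ 𝟙_ D) : (tensorRight A).IsEquivalence :=
  (CategoryTheory.Equivalence.mk (tensorRight A) (tensorRight Y)
    ((rightUnitorNatIso D).symm ≪≫ (tensoringRight D).mapIso e.symm ≪≫ tensorRightTensor A Y)
    ((tensorRightTensor Y A).symm ≪≫ (tensoringRight D).mapIso (β_ Y A ≪≫ e) ≪≫
      rightUnitorNatIso D)).isEquivalence_functor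

variable {W : Tower}

theorem Phi.of_right {T T' : W.T₀.C} (e : T ⊗ T' ≅ 𝟙_ _) {A B A₁ : W.T₀.C} {f : A ⟶ B}
    {p : A ⟶ A₁} (h : Phi (f ▷ T) (p ▷ T)) : Phi f p := by
  intro C c q D Z c' q' D'
  let e' : (Nm W).obj T ⊗ (Nm W).obj T' ≅ 𝟙_ _ :=
    Functor.Monoidal.μIso (Nm W) T T' ≪≫ (Nm W).mapIso e ≪≫ (Functor.Monoidal.εIso (Nm W)).symm
  have := equiv_right e'
  have D₁ : Dist ((Nm W).map (f ▷ T)) (δ (Nm W) B T ≫ c' ▷ (Nm W).obj T)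
      (q' ▷ (Nm W).obj T ≫ (lS _ _).hom ≫ (μ (Nm W) A T)⟦(1 : ℤ)⟧') := by
    simpa using Tr.dist_iso (Ms.dist_l D' ((Nm W).obj T)) (Functor.Monoidal.μIso (Nm W) A T).symm
      (Functor.Monoidal.μIso (Nm W) B T).symm (Iso.refl _) (f' := (Nm W).map (f ▷ T))
      (g' := δ (Nm W) B T ≫ c' ▷ (Nm W).obj T) (δ_natural_left _ _ _).symm (Category.comp_id _)
  obtain ⟨φ, ζ, ζ₁, h1, h2, h3, h4⟩ := h _ _ _ (Ms.dist_l D T) _ _ _ D₁
  have sj : ∀ {X Y : W.T₁.C} (k : X ⊗ (Nm W).obj T ⟶ Y ⊗ (Nm W).obj T),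
    ∃ k' : X ⟶ Y, k' ▷ (Nm W).obj T = k := fun k => (tensorRight _).map_surjective k
  have ij : ∀ {X Y : W.T₁.C} {k k' : X ⟶ Y}, k ▷ (Nm W).obj T = k' ▷ (Nm W).obj T → k = k' :=
    fun k => (tensorRight _).map_injective k
  obtain ⟨φ', hφ⟩ := sj (φ ≫ δ (Nm W) C T)
  obtain ⟨ζ', hζ⟩ := sj ((lS _ _).hom ≫ (μ (Nm W) A T)⟦(1 : ℤ)⟧' ≫ ζ ≫
    (Nm W).map (lS _ _).inv ≫ δ (Nm W) _ T)
  obtain ⟨ζ₁', hζ₁⟩ := sj ((lS _ _).hom ≫ (μ (Nm W) A₁ T)⟦(1 : ℤ)⟧' ≫ ζ₁ ≫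
    (Nm W).map (lS _ _).inv ≫ δ (Nm W) _ T)
  refine ⟨φ', ζ', ζ₁', ij ?_, ij ?_, ij ?_, Eu.of_right e' (h4.of_eq
    ((lS _ _).hom ≫ (μ (Nm W) A₁ T)⟦(1 : ℤ)⟧') (μ (Nm W) _ T ≫ (Nm W).map (lS _ _).hom) ?_)⟩
  · rw [comp_whiskerRight, hφ, ← cancel_epi (δ (Nm W) B T), δ_natural_left, ← h1]
    simp only [Category.assoc]
  · rw [comp_whiskerRight, comp_whiskerRight, hφ, hζ, Category.assoc, δ_natural_left,
      ← Category.comp_id (q ▷ T), ← (lS A T).hom_inv_id, ← Category.assoc (q ▷ T),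
      Functor.map_comp, Category.assoc, reassoc_of% h2]
  · rw [comp_whiskerRight, comp_whiskerRight, hζ, hζ₁, lS_nat_l_assoc,
      ← Functor.map_comp_assoc, μ_natural_left, Functor.map_comp_assoc, ← reassoc_of% h3,
      ← Functor.map_comp_assoc (Nm W), ← cancel_epi (lS _ _).inv]
    simp only [Category.assoc, Iso.inv_hom_id_assoc]
    rw [δ_natural_left, ← Functor.map_comp_assoc (Nm W)]
    congr 4
    rw [Iso.inv_comp_eq, ← lS_nat_l_assoc, Iso.hom_inv_id, Category.comp_id]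
  · rw [hζ₁]
    simp only [Category.assoc, Functor.Monoidal.δ_μ_assoc, ← Functor.map_comp, Iso.inv_hom_id,
      CategoryTheory.Functor.map_id, Category.comp_id]

/-- the suspension of a realisation -/
def sus {A : W.T₀.C} {X : FCat} (a : A ≅ W.F.S.obj X) (Y : FCat) :
    A ⊗ W.F.S.obj Y ≅ W.F.S.obj (X ⊗ Y) :=
  whiskerRightIso a _ ≪≫ Functor.Monoidal.μIso W.F.S X Y

variable {A B : W.T₀.C} {X Y : FCat} (a : A ≅ W.F.S.obj X) (b : B ≅ W.F.S.obj Y)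

theorem exists_R1 (f : A ⟶ B) :
    ∃ n, R1 (sus a (SphF n)) (sus b (SphF n)) (f ▷ W.F.S.obj (SphF n)) := by
  obtain ⟨n, h, hh⟩ := W.F.full (a.inv ≫ f ≫ b.hom)
  refine ⟨n, h, ?_⟩
  rw [hh]
  simp [sus]

variable {a b} in
theorem R1.sus {f : A ⟶ B} (h : R1 a b f) (Z : FCat) :
    R1 (sus a Z) (sus b Z) (f ▷ W.F.S.obj Z) := by
  obtain ⟨g, hg⟩ := h
  refine ⟨g ▷ Z, ?_⟩
  simp only [P236TD.sus, Iso.trans_hom, whiskerRightIso_hom, Functor.Monoidal.μIso_hom,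
    Category.assoc]
  rw [← comp_whiskerRight_assoc, hg, comp_whiskerRight_assoc, μ_natural_left]

theorem inv_sph (n : ℕ) : Nonempty (W.F.S.obj (SphF n) ⊗ (𝟙_ W.T₀.C)⟦(-n : ℤ)⟧ ≅ 𝟙_ W.T₀.C) :=
  (Sph.cast (Sph.tensor ⟨sphIso W.F n⟩ ⟨Iso.refl _⟩) (add_neg_cancel _)).iso sph_unit

/-- finite objects -/
abbrev Fn (A : W.T₀.C) : Prop := Tr.Cell (fun _ => True) A

theorem phi (hg : W.Geo) {A B A₁ : W.T₀.C} (hA : Fn A) (hB : Fn B) (hA₁ : Fn A₁) (f : A ⟶ B)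
    (p : A ⟶ A₁) : Phi f p := by
  obtain ⟨k, h⟩ := Tr.exists_rl W.F W.F hA
  obtain ⟨k', h'⟩ := Tr.exists_rl W.F W.F hB
  obtain ⟨k₁, h₁⟩ := Tr.exists_rl W.F W.F hA₁
  obtain ⟨X, ⟨a⟩, -⟩ := h.up (l := k + k' + k₁) (by omega)
  obtain ⟨Y, ⟨b⟩, -⟩ := h'.up (l := k + k' + k₁) (by omega)
  obtain ⟨X₁, ⟨a₁⟩, -⟩ := h₁.up (l := k + k' + k₁) (by omega)
  generalize k + k' + k₁ = l at a b a₁
  replace a := Tr.tenOf A (sphIso W.F l) ≪≫ a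
  replace b := Tr.tenOf B (sphIso W.F l) ≪≫ b
  replace a₁ := Tr.tenOf A₁ (sphIso W.F l) ≪≫ a₁
  obtain ⟨n, hn⟩ := exists_R1 a b (f ▷ _)
  obtain ⟨m, hm⟩ := exists_R1 (sus a (SphF n)) (sus a₁ (SphF n)) ((p ▷ _) ▷ _)
  exact (((phi_space hg (hn.sus _) hm).of_right (inv_sph m).some).of_right
    (inv_sph n).some).of_right (inv_sph l).some

end Vale.Agent.P236TD
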