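import Vale.Agent.P251.H.BrownApp
import Mathlib.CategoryTheory.Triangulated.Adjunction

/-!
# P236, the Toda cell: existence of left adjoints of triangulated functors

The objects `Y` which have a universal map `Y ⟶ G Q` form a localizing subcategory.
-/

open CategoryTheory Limits Pretriangulated
open Vale.Agent.P251.H

universe v u v' u'

namespace Vale.Agent.P236TD

variable {C : Type u} [Category.{v} C] [Preadditive C] [HasZeroObject C] [HasShift C ℤ]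
  [∀ n : ℤ, (shiftFunctor C n).Additive] [Pretriangulated C]
  {D : Type u'} [Category.{v'} D] [Preadditive D] [HasZeroObject D] [HasShift D ℤ]
  [∀ n : ℤ, (shiftFunctor D n).Additive] [Pretriangulated D]
  (G : C ⥤ D) [G.CommShift ℤ]

/-- `p : Y ⟶ G Q` is universal -/
def Univ {Y : D} {Q : C} (p : Y ⟶ G.obj Q) : Prop :=
  ∀ Z : C, Function.Bijective fun f : Q ⟶ Z => p ≫ G.map f

variable {G}

section

omit [Preadditive C] [HasZeroObject C] [∀ n : ℤ, (shiftFunctor C n).Additive] [Pretriangulated C]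
  [Preadditive D] [HasZeroObject D] [∀ n : ℤ, (shiftFunctor D n).Additive] [Pretriangulated D]

omit [HasShift C ℤ] [HasShift D ℤ] [G.CommShift ℤ] in
theorem Univ.ext {Y : D} {Q Z : C} {p : Y ⟶ G.obj Q} (h : Univ G p) {f g : Q ⟶ Z}
    (e : p ≫ G.map f = p ≫ G.map g) : f = g := (h Z).1 e

omit [HasShift C ℤ] [HasShift D ℤ] [G.CommShift ℤ] in
theorem Univ.lift {Y : D} {Q Z : C} {p : Y ⟶ G.obj Q} (h : Univ G p) (y : Y ⟶ G.obj Z) :
    ∃ f : Q ⟶ Z, p ≫ G.map f = y := (h Z).2 y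

omit [HasShift C ℤ] [HasShift D ℤ] [G.CommShift ℤ] in
theorem Univ.pre {Y Y' : D} {Q : C} {p : Y ⟶ G.obj Q} (h : Univ G p) (e : Y' ≅ Y) :
    Univ G (e.hom ≫ p) := fun Z => by
  refine ⟨fun f g k => h.ext ((cancel_epi e.hom).1 ?_), fun y => ?_⟩
  · simpa only [Category.assoc] using k
  · obtain ⟨f, hf⟩ := h.lift (e.inv ≫ y)
    exact ⟨f, by dsimp only; rw [Category.assoc, hf, Iso.hom_inv_id_assoc]⟩

theorem shift_eq {Y : D} {Q Z : C} (p : Y ⟶ G.obj Q) (n : ℤ) (f : Q ⟶ Z) :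
    (p⟦n⟧' ≫ (G.commShiftIso n).inv.app Q) ≫ G.map (f⟦n⟧') =
      (p ≫ G.map f)⟦n⟧' ≫ (G.commShiftIso n).inv.app Z := by
  have h := (G.commShiftIso n).inv.naturality f
  dsimp at h
  rw [Category.assoc, ← h, Functor.map_comp, Category.assoc]

theorem Univ.shift {Y : D} {Q : C} {p : Y ⟶ G.obj Q} (h : Univ G p) (n : ℤ) :
    Univ G (p⟦n⟧' ≫ (G.commShiftIso n).inv.app Q) := fun Z => by
  let e : (Z⟦-n⟧)⟦n⟧ ≅ Z := shiftNegShift Z n
  refine ⟨fun f g k => ?_, fun y => ?_⟩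
  · obtain ⟨f', hf⟩ := (shiftFunctor C n).map_surjective (f ≫ e.inv)
    obtain ⟨g', hg⟩ := (shiftFunctor C n).map_surjective (g ≫ e.inv)
    have k' : (p⟦n⟧' ≫ (G.commShiftIso n).inv.app Q) ≫ G.map (f'⟦n⟧') =
        (p⟦n⟧' ≫ (G.commShiftIso n).inv.app Q) ≫ G.map (g'⟦n⟧') := by
      rw [hf, hg, G.map_comp, G.map_comp, ← Category.assoc _ (G.map f), ← Category.assoc _ (G.map g)]
      exact congrArg (· ≫ G.map e.inv) k
    rw [shift_eq, shift_eq, cancel_mono] at k'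
    rw [← cancel_mono e.inv, ← hf, ← hg, h.ext ((shiftFunctor D n).map_injective k')]
  · obtain ⟨y', hy⟩ := (shiftFunctor D n).map_surjective
      (y ≫ G.map e.inv ≫ (G.commShiftIso n).hom.app _)
    obtain ⟨f, rfl⟩ := h.lift y'
    refine ⟨f⟦n⟧' ≫ e.hom, ?_⟩
    dsimp only
    rw [G.map_comp, ← Category.assoc, shift_eq, hy]
    simp only [Category.assoc, Iso.hom_inv_id_app_assoc]
    rw [← G.map_comp, Iso.inv_hom_id, G.map_id, Category.comp_id]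

end

variable [G.IsTriangulated]

theorem Univ.cone {Y₁ Y₂ Y₃ : D} {f : Y₁ ⟶ Y₂} {g : Y₂ ⟶ Y₃} {h : Y₃ ⟶ Y₁⟦(1 : ℤ)⟧}
    (E : Dist f g h) {Q₁ Q₂ : C} {p₁ : Y₁ ⟶ G.obj Q₁} {p₂ : Y₂ ⟶ G.obj Q₂} (h₁ : Univ G p₁)
    (h₂ : Univ G p₂) : ∃ (Q₃ : C) (p₃ : Y₃ ⟶ G.obj Q₃), Univ G p₃ := by
  obtain ⟨φ, hφ⟩ := h₁.lift (f ≫ p₂)
  obtain ⟨Q₃, ψ, χ, E'⟩ := exists_cone φ
  have E'' : Dist (G.map φ) (G.map ψ) (G.map χ ≫ (G.commShiftIso (1 : ℤ)).hom.app Q₁) :=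
    G.map_distinguished _ E'
  obtain ⟨p₃, k₂, k₃⟩ := E.map₃ E'' p₁ p₂ hφ.symm
  have h₁' := h₁.shift 1
  have h₂' := h₂.shift 1
  have k₃' : h ≫ p₁⟦(1 : ℤ)⟧' ≫ (G.commShiftIso (1 : ℤ)).inv.app Q₁ = p₃ ≫ G.map χ := by
    rw [reassoc_of% k₃, Iso.hom_inv_id_app]
    exact congrArg (p₃ ≫ ·) (Category.comp_id _)
  have k₄ := shift_eq p₁ 1 φ
  rw [hφ, Functor.map_comp, Category.assoc (f⟦(1 : ℤ)⟧')] at k₄
  generalize p₁⟦(1 : ℤ)⟧' ≫ (G.commShiftIso (1 : ℤ)).inv.app Q₁ = p₁' at h₁' k₃' k₄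
  generalize p₂⟦(1 : ℤ)⟧' ≫ (G.commShiftIso (1 : ℤ)).inv.app Q₂ = p₂' at h₂' k₄
  refine ⟨Q₃, p₃, fun Z => ⟨fun a a' k => ?_, fun z => ?_⟩⟩
  · rw [← sub_eq_zero]
    replace k : p₃ ≫ G.map (a - a') = 0 := by
      rw [G.map_sub, Preadditive.comp_sub, sub_eq_zero]
      exact k
    generalize a - a' = a at k
    have h3 : ψ ≫ a = 0 := h₂.ext (by
      rw [G.map_comp, ← reassoc_of% k₂, k, G.map_zero, comp_zero, comp_zero])
    obtain ⟨b, rfl⟩ := E'.desc₃ a h3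
    obtain ⟨w, hw⟩ := E.desc₁ (p₁' ≫ G.map b) (by rw [reassoc_of% k₃', ← G.map_comp, k])
    obtain ⟨w', rfl⟩ := h₂'.lift w
    have h4 : b = φ⟦(1 : ℤ)⟧' ≫ w' := h₁'.ext (by rw [← hw, G.map_comp, reassoc_of% k₄])
    rw [h4, ← Category.assoc, E'.zero₃₁, zero_comp]
  · obtain ⟨c, hc⟩ := h₂.lift (g ≫ z)
    have h3 : φ ≫ c = 0 := h₁.ext (by
      rw [G.map_comp, reassoc_of% hφ, hc, ← Category.assoc, E.zero₁₂, G.map_zero, comp_zero,
        zero_comp])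
    obtain ⟨a, rfl⟩ := E'.desc₂ c h3
    obtain ⟨x, hx⟩ := E.desc₃ (z - p₃ ≫ G.map a) (by
      rw [Preadditive.comp_sub, reassoc_of% k₂, ← G.map_comp, hc, sub_self])
    obtain ⟨b, rfl⟩ := h₁'.lift x
    refine ⟨a + χ ≫ b, ?_⟩
    dsimp only
    rw [G.map_add, Preadditive.comp_add, G.map_comp, ← reassoc_of% k₃', hx, add_sub_cancel]

variable [HasCoproducts.{0} C] [HasCoproducts.{0} D]

variable (G) in
theorem univ_localizing : Localizing fun Y : D => ∃ (Q : C) (p : Y ⟶ G.obj Q), Univ G p where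
  iso e := fun ⟨Q, _, h⟩ => ⟨Q, _, h.pre e.symm⟩
  shift n := fun ⟨_, _, h⟩ => ⟨_, _, h.shift n⟩
  cone E := fun ⟨_, _, h₁⟩ ⟨_, _, h₂⟩ => Univ.cone E h₁ h₂
  coprod Y h := by
    choose Q p h using h
    refine ⟨∐ Q, Sigma.desc fun i => p i ≫ G.map (Sigma.ι Q i), fun Z => ⟨fun f g k => ?_,
      fun y => ?_⟩⟩
    · refine Limits.Sigma.hom_ext _ _ fun i => (h i).ext ?_
      have k' := congrArg (Sigma.ι Y i ≫ ·) k
      simpa only [Sigma.ι_desc_assoc, Category.assoc, G.map_comp] using k'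
    · choose f hf using fun i => (h i).lift (Sigma.ι Y i ≫ y)
      refine ⟨Sigma.desc f, Limits.Sigma.hom_ext _ _ fun i => ?_⟩
      dsimp only
      rw [Sigma.ι_desc_assoc, Category.assoc, ← G.map_comp, Sigma.ι_desc, hf]

/-- A triangulated functor has a left adjoint if a compact generator has a universal map. -/
theorem exists_leftAdjoint [LocallySmall.{0} D] {O : D} (hc : IsCpt O) (hg : IsGen O) {Q : C}
    {p : O ⟶ G.obj Q} (h : Univ G p) : ∃ F : D ⥤ C, Nonempty (F ⊣ G) := by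
  choose Q p h using inLoc_cpt hc hg _ (univ_localizing G) ⟨Q, p, h⟩
  exact ⟨_, ⟨Adjunction.adjunctionOfEquivLeft (G := G) (F_obj := Q)
    (fun Y Z => Equiv.ofBijective _ (h Y Z)) fun Y Z Z' g k => by
      change p Y ≫ G.map (k ≫ g) = (p Y ≫ G.map k) ≫ G.map g
      rw [G.map_comp, Category.assoc]⟩⟩

end Vale.Agent.P236TD
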