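import Vale.Agent.P236TD.Orb
import Vale.Agent.P236Z.Cat.Nm
import Vale.Agent.P236Z.Tr.Defs
import Vale.Agent.P257.H762.MCell

/-!
# P236, the Toda cell: maps to Eilenberg-Mac Lane objects with trivial action; the norm map

* `van`, `inj_U`, `surj_U`: equivariant maps `Y ⟶ tv K`, `K` with homotopy in degree zero;
* `exists_nm`: the norm map `N H ⟶ tv H`.
-/

open CategoryTheory MonoidalCategory Limits Pretriangulated
open Functor.LaxMonoidal Functor.OplaxMonoidal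
open Vale.Agent.P251 Vale.Agent.P251.T Vale.Agent.P251.M Vale.Agent.P251.H
open Vale.Agent.P236Z Vale.Agent.P236Z.Cat Vale.Agent.P236Z.SS

noncomputable section

namespace Vale.Agent.P236TD

variable {W : Tower}

/-- the restriction of the norm -/
def nu (Y : W.T₀.C) : (U W).obj ((Nm W).obj Y) ≅ Y ⊗ Y ⊗ Y := W.s₁.ν.app Y

@[reassoc] theorem nu_nat {A B : W.T₀.C} (f : A ⟶ B) :
    (U W).map ((Nm W).map f) ≫ (nu B).hom = (nu A).hom ≫ (f ⊗ₘ f ⊗ₘ f) := W.s₁.ν.hom.naturality f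

@[reassoc] theorem γ_nu (Y : W.T₀.C) : W.s₁.γ _ ≫ (nu Y).hom = (nu Y).hom ≫ rot Y Y Y := by
  refine (W.s₁.ν_h Y).trans (congrArg ((nu Y).hom ≫ ·) ?_)
  change rot Y Y Y ≫ (𝟙 Y ⊗ₘ 𝟙 Y ⊗ₘ 𝟙 Y) = _
  rw [id_tensorHom_id, id_tensorHom_id, Category.comp_id]

@[reassoc] theorem nu_unit :
    ε (U W) ≫ (U W).map (ε (Nm W)) ≫ (nu _).hom = (λ_ _).inv ≫ _ ◁ (λ_ _).inv :=
  ((Category.assoc _ _ _).symm.trans (NatTrans.IsMonoidal.unit (τ := W.s₁.ν.hom))).trans cube_ε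

@[reassoc] theorem nu_tensor (X Y : W.T₀.C) : μ (U W) _ _ ≫ (U W).map (μ (Nm W) X Y) ≫
    (nu _).hom = ((nu X).hom ⊗ₘ (nu Y).hom) ≫ mix X X X Y Y Y := by
  rw [← cube_μ]
  exact (Category.assoc _ _ _).symm.trans (NatTrans.IsMonoidal.tensor (τ := W.s₁.ν.hom) X Y)

theorem conn_cell {n : ℤ} {X : W.T₀.C} (h : Conn n X) : BigCell W.T₀.C n X :=
  have := locallySmall_self.{0} W.T₀.C
  P257.H762.bigCell_of_conn (unit_conn W.F) h

theorem conn_ind {n : ℤ} {S : W.T₀.C} (h : Conn n S) : Conn n ((U W).obj (W.s₁.ind.obj S)) :=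
  fun k hk f => by
    rw [W.s₁.eq_sum f]
    exact Finset.sum_eq_zero fun i _ => by rw [h k hk (f ≫ _), zero_comp]

theorem U_eq_zero {Z Z' : W.T₁.C} {i : Z ⟶ Z'} (h : W.s₁.cu Z ≫ i = 0) : (U W).map i = 0 := by
  rw [← W.s₁.un_cu_assoc Z ((U W).map i), ← Functor.map_comp, h, Functor.map_zero, comp_zero]

theorem conn_cone {n : ℤ} {Z Z' : W.T₁.C} {i : Z ⟶ Z'}
    {b : Z' ⟶ (W.s₁.ind.obj ((U W).obj Z))⟦(1 : ℤ)⟧} (D : Dist (W.s₁.cu Z) i b)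
    (h : Conn n ((U W).obj Z)) : Conn (n + 1) ((U W).obj Z') := fun k hk f => by
  obtain ⟨g, rfl⟩ := (dist_U D).lift₃ f ((conn_ind h).shift 1 _ rfl k hk _)
  rw [U_eq_zero D.zero₁₂, comp_zero]

variable {K : W.T₀.C} (hK : ∀ k : ℤ, k ≠ 0 → ∀ g : (𝟙_ W.T₀.C)⟦k⟧ ⟶ K, g = 0)

include hK

theorem van_step {Z : W.T₁.C} (h : Conn 1 ((U W).obj Z)) (f : Z ⟶ (tv W).obj K) :
    ∃ (Z' : W.T₁.C) (i : Z ⟶ Z') (f' : Z' ⟶ (tv W).obj K), Conn 1 ((U W).obj Z') ∧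
      (U W).map i = 0 ∧ i ≫ f' = f := by
  obtain ⟨Z', i, b, D⟩ := exists_cone (W.s₁.cu Z)
  obtain ⟨f', hf⟩ := D.desc₂ f (W.s₁.un_ext (by
    rw [← cancel_mono (tU W K).hom, Functor.map_zero, comp_zero, zero_comp]
    exact X.eq_zero_of_bigCell hK (conn_cell h) _))
  exact ⟨Z', i, f', (conn_cone D h).mono (by norm_num), U_eq_zero D.zero₁₂, hf⟩

theorem van {Z : W.T₁.C} (h : Conn 1 ((U W).obj Z)) (f : Z ⟶ (tv W).obj K) : f = 0 := by
  choose Z' i f' h1 h2 h3 using fun s : {s : Σ Z : W.T₁.C, (Z ⟶ (tv W).obj K) //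
    Conn 1 ((U W).obj s.1)} => van_step hK s.2 s.1.2
  let E : ℕ → {s : Σ Z : W.T₁.C, (Z ⟶ (tv W).obj K) // Conn 1 ((U W).obj s.1)} := fun m =>
    Nat.rec ⟨⟨Z, f⟩, h⟩ (fun _ s => ⟨⟨Z' s, f' s⟩, h1 s⟩) m
  let Y : ℕ → W.T₁.C := fun m => (E m).1.1
  let j : ∀ m, Y m ⟶ Y (m + 1) := fun m => i (E m)
  let g : ∀ m, Y m ⟶ (tv W).obj K := fun m => (E m).1.2
  have hj : ∀ m, (U W).map (j m) = 0 := fun m => h2 (E m)
  have hg : ∀ m, j m ≫ g (m + 1) = g m := fun m => h3 (E m)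
  let sh : ∐ Y ⟶ ∐ Y := Sigma.desc fun m => j m ≫ Sigma.ι Y (m + 1)
  have h4 : (U W).map sh = 0 :=
    Cofan.IsColimit.hom_ext (isColimitOfHasCoproductOfPreservesColimit (U W) Y) _ _ fun m => by
      change (U W).map (Sigma.ι Y m) ≫ (U W).map sh = (U W).map (Sigma.ι Y m) ≫ 0
      rw [← Functor.map_comp, Sigma.ι_desc, Functor.map_comp, hj, zero_comp, comp_zero]
  have : IsIso ((U W).map (𝟙 _ - sh)) := by
    rw [Functor.map_sub, h4, sub_zero]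
    infer_instance
  have : IsIso (𝟙 _ - sh) := isIso_of_reflects_iso _ (U W)
  have h5 : Sigma.desc g = 0 := by
    rw [← cancel_epi (𝟙 _ - sh), comp_zero]
    refine Limits.Sigma.hom_ext _ _ fun m => ?_
    rw [Preadditive.sub_comp, Preadditive.comp_sub, Category.id_comp, Sigma.ι_desc,
      Sigma.ι_desc_assoc, Category.assoc, Sigma.ι_desc, hg, sub_self, comp_zero]
  have h6 := Sigma.ι_desc g 0
  rw [h5, comp_zero] at h6
  exact h6.symm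

theorem inj_U {Y : W.T₁.C} (h : Conn 0 ((U W).obj Y)) {f g : Y ⟶ (tv W).obj K}
    (e : (U W).map f = (U W).map g) : f = g := by
  obtain ⟨Z', i, b, D⟩ := exists_cone (W.s₁.cu Y)
  obtain ⟨f', hf⟩ := D.desc₂ (f - g) (W.s₁.un_ext (by
    rw [Functor.map_comp, W.s₁.un_cu_assoc, Functor.map_sub, e, sub_self, Functor.map_zero,
      comp_zero]))
  rw [← sub_eq_zero, ← hf, van hK (conn_cone D h) f', comp_zero]

theorem surj_U {Y : W.T₁.C} (h : Conn 0 ((U W).obj Y)) (m : (U W).obj Y ⟶ K)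
    (hm : W.s₁.γ Y ≫ m = m) : ∃ f : Y ⟶ (tv W).obj K, (U W).map f ≫ (tU W K).hom = m := by
  obtain ⟨F, k, b, D⟩ := exists_fibre (W.s₁.cu Y)
  have D' := dist_U D
  have hF : Conn 0 ((U W).obj F) := fun n hn x => by
    obtain ⟨y, hy⟩ := D'.lift₁ (x⟦(1 : ℤ)⟧') (by
      rw [← Functor.map_comp, conn_ind h n hn (x ≫ _), Functor.map_zero])
    apply (shiftFunctor _ (1 : ℤ)).map_injective
    rw [← hy, U_eq_zero D.zero₂₃, zero_comp, comp_zero, Functor.map_zero]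
  have h1 : (U W).map (shp (m ≫ (tU W K).inv)) = (U W).map (W.s₁.cu Y) ≫ m ≫ (tU W K).inv := by
    have k1 : W.s₁.γ _ ≫ (U W).map (shp (m ≫ (tU W K).inv)) =
        (U W).map (shp (m ≫ (tU W K).inv)) := by rw [← W.s₁.γ_nat, γ_tv, Category.comp_id]
    have k2 : W.s₁.γ _ ≫ (U W).map (W.s₁.cu Y) ≫ m ≫ (tU W K).inv =
        (U W).map (W.s₁.cu Y) ≫ m ≫ (tU W K).inv := by rw [← W.s₁.γ_nat_assoc, reassoc_of% hm]
    refine W.s₁.cof_ext ?_ ?_ ?_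
    · rw [un_shp, W.s₁.un_cu_assoc]
    · rw [k1, k2, un_shp, W.s₁.un_cu_assoc]
    · rw [k1, k1, k2, k2, un_shp, W.s₁.un_cu_assoc]
  obtain ⟨f, hf⟩ := D.desc₂ (shp (m ≫ (tU W K).inv)) (inj_U hK hF (by
    rw [Functor.map_comp, h1, ← Category.assoc, D'.zero₁₂, zero_comp, Functor.map_zero]))
  refine ⟨f, ?_⟩
  rw [← W.s₁.un_cu_assoc Y ((U W).map f ≫ _), ← Functor.map_comp_assoc, hf, un_shp_assoc,
    Category.assoc, Iso.inv_hom_id, Category.comp_id]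

omit hK in
/-- The norm map of the Eilenberg-Mac Lane ring. -/
theorem exists_nm {H : W.T₀.C} [MonObj H] [IsCommMonObj H]
    (hH : ∀ k : ℤ, k ≠ 0 → ∀ g : (𝟙_ W.T₀.C)⟦k⟧ ⟶ H, g = 0) :
    ∃ nm : (Nm W).obj H ⟶ (tv W).obj H,
      (U W).map nm ≫ (tU W H).hom = (nu H).hom ≫ Step.mul3 H ∧
      ε (Nm W) ≫ (Nm W).map (MonObj.one (X := H)) ≫ nm =
        ε (tv W) ≫ (tv W).map (MonObj.one (X := H)) := by
  have h0 : BigCell W.T₀.C 0 H := conn_cell fun k hk => hH k hk.ne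
  have h1 : Conn 0 ((U W).obj ((Nm W).obj H)) :=
    (cell_conn (h0.tensor (h0.tensor h0 0 rfl) 0 rfl)).of_iso (nu H).symm
  obtain ⟨nm, hnm⟩ := surj_U hH h1 ((nu H).hom ≫ Step.mul3 H) (by rw [γ_nu_assoc, Step.Nm.rot_mul3])
  refine ⟨nm, hnm, inj_U hH ((unit_conn W.F).of_iso (Functor.Monoidal.εIso (U W))) ?_⟩
  rw [← cancel_mono (tU W H).hom, ← cancel_epi (ε (U W)), Functor.map_comp, Functor.map_comp,
    Functor.map_comp, Category.assoc, Category.assoc, Category.assoc, hnm, nu_nat_assoc,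
    nu_unit_assoc, tU_nat, reassoc_of% tU_unit]
  simp [Step.mul3, MonoidalCategory.tensorHom_def]
  monoidal

end Vale.Agent.P236TD
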